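import Vale.Agent.P146.H347.Mod2
import Vale.Agent.P146.H475.Amp2

/-!
The SK system with several modulated private fields (ensemble `U`).

* thermal space: any measurable space `Th` with a finite non-zero measure `ν`;
* `muU ν n = ν.prod count` on `Th × Xs n`;
* coordinates: `H347.Co n LB LF`, as for the single amplitude (all of `H347.Mod3` about revealed
  sets and permutations stays valid); the field level `l` has the amplitude `a l : Th → ℝ`, the
  coordinates `gd` are dummies: their energy is `0`;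
* `AmU a η`: the amplitudes are measurable and in `[1 - η, 1 + η]`;
* `nuA lam η c` = the law of one thermal variable with its compensator, `nuG lam η c` = the product
  over a finite type of modulated levels, `ag η g` = the amplitude of the modulated level `g`;
* `gmU`, `symPU`, `symGU`: regularity classes and symmetries.
-/

open MeasureTheory ProbabilityTheory Filter Set

namespace Vale.Agent.P146.H281.U

open Vale.Agent.P157.Lv Vale.Agent.P146.H196 Vale.Agent.P146.H646 Vale.Agent.P146.H475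
  Vale.Agent.P146.H816 Vale.Agent.P146.H325 Vale.Agent.P146.H347

set_option linter.unusedSectionVars false

/-! ### the thermal measure -/

/-- the law of one thermal variable with its compensator -/
noncomputable def nuA (lam η c : ℝ) : Measure ℝ :=
  (lap lam).withDensity fun t => ENNReal.ofReal (cw η c t)

theorem finite_nuA {lam η : ℝ} (h : 0 < lam) (hη : 0 ≤ η) (c : ℝ) :
    IsFiniteMeasure (nuA lam η c) := by
  have := isProb_lap h
  unfold nuA
  refine isFiniteMeasure_withDensity (ne_of_lt ?_)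
  calc ∫⁻ t : ℝ, ENNReal.ofReal (cw η c t) ∂(lap lam)
      ≤ ∫⁻ _t : ℝ, ENNReal.ofReal (Real.exp (|c| / 2 * ((1 + η) ^ 2 + 1))) ∂(lap lam) :=
        lintegral_mono fun p => ENNReal.ofReal_le_ofReal (cw_le hη c p)
    _ < ⊤ := by
        rw [lintegral_const]
        exact ENNReal.mul_lt_top ENNReal.ofReal_lt_top (measure_lt_top _ _)

/-- integrals against `nuA` -/
theorem integral_nuA (lam η c : ℝ) (f : ℝ → ℝ) :
    ∫ t, f t ∂(nuA lam η c) = ∫ t, cw η c t * f t ∂(lap lam) := by
  unfold nuA
  rw [integral_withDensity_eq_integral_toReal_smul (measurable_cw η c).ennreal_ofReal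
    (Eventually.of_forall fun p => ENNReal.ofReal_lt_top)]
  refine integral_congr_ae (Eventually.of_forall fun t => ?_)
  simp only [smul_eq_mul]
  rw [ENNReal.toReal_ofReal (cw_pos η c t).le]

lemma nuA_ne {lam η : ℝ} (h : 0 < lam) (hη : 0 ≤ η) (c : ℝ) : nuA lam η c ≠ 0 := by
  intro h0
  have hp := isProb_lap h
  have h1 := integral_nuA lam η c (fun _ => 1)
  rw [h0, integral_zero_measure] at h1
  have h2 : 0 < ∫ t, cw η c t * 1 ∂(lap lam) := by
    simp only [mul_one]
    have hi : Integrable (cw η c) (lap lam) :=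
      Integrable.of_bound (measurable_cw η c).aestronglyMeasurable
        (Real.exp (|c| / 2 * ((1 + η) ^ 2 + 1)))
        (Eventually.of_forall fun t => by
          rw [Real.norm_eq_abs, abs_of_pos (cw_pos η c t)]; exact cw_le hη c t)
    exact integral_exp_pos hi
  exact h2.ne h1

section nuG

variable {G : Type} [Fintype G]

/-- the law of all the thermal variables -/
noncomputable def nuG (lam : G → ℝ) (η : ℝ) (c : G → ℝ) : Measure (G → ℝ) :=
  Measure.pi fun g => nuA (lam g) η (c g)

theorem finite_nuG {lam : G → ℝ} {η : ℝ} (h : ∀ g, 0 < lam g) (hη : 0 ≤ η) (c : G → ℝ) :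
    IsFiniteMeasure (nuG lam η c) := by
  have : ∀ g, IsFiniteMeasure (nuA (lam g) η (c g)) := fun g => finite_nuA (h g) hη (c g)
  unfold nuG
  infer_instance

theorem nuG_ne {lam : G → ℝ} {η : ℝ} (h : ∀ g, 0 < lam g) (hη : 0 ≤ η) (c : G → ℝ) :
    nuG lam η c ≠ 0 := by
  have : ∀ g, IsFiniteMeasure (nuA (lam g) η (c g)) := fun g => finite_nuA (h g) hη (c g)
  intro h0
  have h1 : nuG lam η c univ = ∏ g, nuA (lam g) η (c g) univ := by
    unfold nuG
    rw [← Set.pi_univ univ, Measure.pi_pi]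
  rw [h0] at h1
  simp only [Measure.coe_zero, Pi.zero_apply] at h1
  obtain ⟨g, -, hg⟩ := Finset.prod_eq_zero_iff.1 h1.symm
  exact nuA_ne (h g) hη (c g) (Measure.measure_univ_eq_zero.1 hg)

/-- the amplitude of the modulated level `g` -/
noncomputable def ag (η : ℝ) (g : G) (θ : G → ℝ) : ℝ := al η (θ g)

lemma measurable_ag (η : ℝ) (g : G) : Measurable (ag η g) :=
  (measurable_al η).comp (measurable_pi_apply g)

lemma abs_ag_sub {η : ℝ} (hη : 0 ≤ η) (g : G) (θ : G → ℝ) : |ag η g θ - 1| ≤ η :=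
  abs_al_sub hη (θ g)

end nuG

/-! ### the ensemble -/

section ens

variable {Th : Type} [MeasurableSpace Th] {n : ℕ} {LB LF : Type}

/-- the base measure -/
noncomputable def muU (ν : Measure Th) (n : ℕ) : Measure (Th × Xs n) :=
  ν.prod (Measure.count : Measure (Xs n))

theorem finite_muU {ν : Measure Th} (hν : IsFiniteMeasure ν) (n : ℕ) :
    IsFiniteMeasure (muU ν n) := by
  have := dmx n
  unfold muU
  infer_instance

theorem muU_ne {ν : Measure Th} (hν : IsFiniteMeasure ν) (h0 : ν ≠ 0) (n : ℕ) :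
    muU ν n ≠ 0 := by
  have := dmx n
  intro h
  have h1 : muU ν n univ = ν univ * (Measure.count : Measure (Xs n)) univ := by
    unfold muU
    rw [← univ_prod_univ, Measure.prod_prod]
  rw [h] at h1
  simp only [Measure.coe_zero, Pi.zero_apply] at h1
  rcases mul_eq_zero.1 h1.symm with h2 | h2
  · exact h0 (Measure.measure_univ_eq_zero.1 h2)
  · rw [Measure.count_eq_zero_iff] at h2
    exact (univ_nonempty (α := Xs n)).ne_empty h2

/-- the standing hypotheses on the amplitudes -/
structure AmU (a : LF → Th → ℝ) (η : ℝ) : Prop where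
  nn : 0 ≤ η
  meas : ∀ l, Measurable (a l)
  bd : ∀ l θ, |a l θ - 1| ≤ η

lemma AmU.abs {a : LF → Th → ℝ} {η : ℝ} (h : AmU a η) (l : LF) (θ : Th) :
    |a l θ| ≤ 1 + η := by
  have h1 := abs_le.1 (h.bd l θ)
  have := h.nn
  rw [abs_le]; constructor <;> linarith [h1.1, h1.2]

/-- the energies -/
noncomputable def SU (b : ℝ) (cB : LB → ℝ) (cF : LF → ℝ) (a : LF → Th → ℝ) :
    Co n LB LF → Th × Xs n → ℝ :=
  Sum.elim (Sum.elim (fun e w => b / √n * cB e.2 * SkS e.1 w.2)
    fun e w => cF e.2 * a e.2 w.1 * sp w.2 e.1) fun _ _ => 0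

variable (b : ℝ) (cB : LB → ℝ) (cF : LF → ℝ) (a : LF → Th → ℝ) (η : ℝ)

@[simp] lemma SU_bd (p : Pair n) (l : LB) (w : Th × Xs n) :
    SU b cB cF a (bd LF p l) w = b / √n * cB l * SkS p w.2 := rfl

@[simp] lemma SU_fd (i : Fin n) (l : LF) (w : Th × Xs n) :
    SU b cB cF a (fd LB i l) w = cF l * a l w.1 * sp w.2 i := rfl

@[simp] lemma SU_gd (i : Fin n) (w : Th × Xs n) :
    SU b cB cF a (gd LB LF i) w = 0 := rfl

lemma abs_SkS (p : Pair n) (σ : Xs n) : |SkS p σ| ≤ 1 := by
  have h := SkS_sq σ p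
  rw [← sq] at h
  exact (sq_le_one_iff_abs_le_one _).1 h.le

lemma abs_sp (σ : Xs n) (i : Fin n) : |sp σ i| ≤ 1 := by
  have h := sp_mul_self σ i
  rw [← sq] at h
  exact (sq_le_one_iff_abs_le_one _).1 h.le

/-- a bound of the energies -/
noncomputable def MU (n : ℕ) [Fintype LB] [Fintype LF] (b : ℝ) (cB : LB → ℝ) (cF : LF → ℝ)
    (η : ℝ) : ℝ := |b / √n| * ∑ l, |cB l| + (∑ l, |cF l|) * (1 + η)

/-- **the regularity classes of `Gibm` for the ensemble `U`** -/
theorem gmU [Fintype LB] [Fintype LF] {ν : Measure Th} (hν : IsFiniteMeasure ν) (h0 : ν ≠ 0)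
    {a : LF → Th → ℝ} (hA : AmU a η) :
    GM (muU ν n) (SU b cB cF a : Co n LB LF → Th × Xs n → ℝ) (MU n b cB cF η) where
  fin := finite_muU hν n
  ne := muU_ne hν h0 n
  pos := by
    have := hA.nn
    unfold MU
    positivity
  meas := by
    have := dmx n
    intro e
    have h1 : ∀ f : Xs n → ℝ, Measurable fun w : Th × Xs n => f w.2 := fun f =>
      (Measurable.of_discrete (f := f)).comp measurable_snd
    rcases e with (⟨p, l⟩ | ⟨i, l⟩) | j
    · exact (h1 fun σ => SkS p σ).const_mul _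
    · exact (((hA.meas l).comp measurable_fst).const_mul _).mul (h1 fun σ => sp σ i)
    · exact measurable_const
  bd := by
    intro e w
    have hη := hA.nn
    unfold MU
    have hs1 : 0 ≤ ∑ l, |cB l| := Finset.sum_nonneg fun _ _ => abs_nonneg _
    have hs2 : 0 ≤ ∑ l, |cF l| := Finset.sum_nonneg fun _ _ => abs_nonneg _
    rcases e with (⟨p, l⟩ | ⟨i, l⟩) | j
    · show |b / √n * cB l * SkS p w.2| ≤ _
      rw [abs_mul, abs_mul]
      have h1 : |cB l| ≤ ∑ l, |cB l| :=
        Finset.single_le_sum (f := fun l => |cB l|) (fun _ _ => abs_nonneg _) (Finset.mem_univ l)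
      have h2 := abs_SkS p w.2
      have h3 : |b / √n| * |cB l| * |SkS p w.2| ≤ |b / √n| * (∑ l, |cB l|) * 1 := by gcongr
      have h4 : 0 ≤ (∑ l, |cF l|) * (1 + η) := by positivity
      linarith
    · show |cF l * a l w.1 * sp w.2 i| ≤ _
      rw [abs_mul, abs_mul]
      have h1 : |cF l| ≤ ∑ l, |cF l| :=
        Finset.single_le_sum (f := fun l => |cF l|) (fun _ _ => abs_nonneg _) (Finset.mem_univ l)
      have h2 := abs_sp w.2 i
      have h5 := hA.abs l w.1
      have h3 : |cF l| * |a l w.1| * |sp w.2 i| ≤ (∑ l, |cF l|) * (1 + η) * 1 := by gcongr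
      have h4 : 0 ≤ |b / √n| * ∑ l, |cB l| := by positivity
      linarith
    · show |(0 : ℝ)| ≤ _
      rw [abs_zero]
      positivity

/-! ### the symmetries -/

lemma SU_perm (π : Equiv.Perm (Fin n)) (e : Co n LB LF) (w : Th × Xs n) :
    SU b cB cF a e (w.1, fun i => w.2 (π i)) =
      1 * SU b cB cF a (cP LB LF π e) w := by
  rw [one_mul]
  rcases e with (⟨p, l⟩ | ⟨i, l⟩) | j
  · show b / √n * cB l * SkS p (fun i => w.2 (π i)) = b / √n * cB l * SkS (pf π p) w.2
    rw [SkS_pf]
  · rfl
  · rfl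

lemma SU_gauge (τ : Xs n) (e : Co n LB LF) (w : Th × Xs n) :
    SU b cB cF a e (w.1, fun i => w.2 i * τ i) =
      eps LB LF τ e * SU b cB cF a e w := by
  rcases e with (⟨p, l⟩ | ⟨i, l⟩) | j
  · show b / √n * cB l * SkS p (fun i => w.2 i * τ i) = SkS p τ * (b / √n * cB l * SkS p w.2)
    rw [SkS_mul]
    ring
  · show cF l * a l w.1 * sp (fun i => w.2 i * τ i) i = sp τ i * (cF l * a l w.1 * sp w.2 i)
    rw [sp_mul]
    ring
  · exact (mul_zero _).symm

lemma mp_muU {ν : Measure Th} (hν : IsFiniteMeasure ν) (g : Equiv.Perm (Xs n)) :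
    MeasurePreserving (fun w : Th × Xs n => (w.1, g w.2)) (muU ν n) (muU ν n) := by
  have := dmx n
  exact (MeasurePreserving.id ν).prod (mp_count g)

lemma emb_muU (g : Equiv.Perm (Xs n)) :
    MeasurableEmbedding (fun w : Th × Xs n => (w.1, g w.2)) := by
  have := dmx n
  let G : Xs n ≃ᵐ Xs n := ⟨g, Measurable.of_discrete, Measurable.of_discrete⟩
  exact ((MeasurableEquiv.refl Th).prodCongr G).measurableEmbedding

/-- permutations of the sites are symmetries -/
theorem symPU {ν : Measure Th} (hν : IsFiniteMeasure ν) (π : Equiv.Perm (Fin n)) :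
    Sym (muU ν n) (SU b cB cF a) (cP LB LF π) (fun _ => 1)
      (fun w => (w.1, fun i => w.2 (π i))) where
  mp := mp_muU hν (rel π)
  emb := emb_muU (rel π)
  sq _ := one_mul 1
  eq e w := SU_perm b cB cF a π e w

/-- gauge transformations are symmetries -/
theorem symGU {ν : Measure Th} (hν : IsFiniteMeasure ν) (τ : Xs n) :
    Sym (muU ν n) (SU b cB cF a) 1 (eps LB LF τ)
      (fun w => (w.1, fun i => w.2 i * τ i)) where
  mp := mp_muU hν (mulE τ)
  emb := emb_muU (mulE τ)
  sq e := eps_sq τ e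
  eq e w := SU_gauge b cB cF a τ e w

end ens

end Vale.Agent.P146.H281.U
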