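import Vale.Agent.P146.H281.U1

/-!
The exact Ghirlanda–Guerra identity of one thermal amplitude in the ensemble `U`.

`g0` a thermal variable, `Lm` the set of the field levels whose amplitude is `al η (θ g0)` (hidden or
revealed), the amplitudes of the other levels do not depend on `θ g0`. The test function `Ψ` may
depend on all the coordinates; `Ψ' l j` is its derivative in the coordinate `fd j l`, `l ∈ Lm`.

`gg_exactU`:
`∫ Ψ Z^x ((s² n - c) ⟨T ins al⟩ - (1-x) s² ∑_j ⟨T ins σ_j⟩⟨al σ_j⟩)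
  + ∑_{l ∈ Lm} cF l ∑_j ∫ Ψ'_{l,j} Z^x ⟨T ins σ_j⟩ = lam ∫ Ψ Z^x ⟨T sg⟩`, `s² = ∑_{l ∈ Lm} cF l ^ 2`.
-/

open MeasureTheory ProbabilityTheory Filter Set

namespace Vale.Agent.P146.H281.U

open Vale.Agent.P157.Lv Vale.Agent.P146.H425 Vale.Agent.P146.H325 Vale.Agent.P146.H196
  Vale.Agent.P146.H646 Vale.Agent.P146.H475 Vale.Agent.P146.H816 Vale.Agent.P146.H347

set_option linter.unusedSectionVars false

/-! ### one coordinate of a product measure -/

section split

variable {G : Type} [Fintype G] [DecidableEq G]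

lemma one_pt {I : Type} [Fintype I] [Unique I] (m : I → Measure ℝ) [∀ i, SigmaFinite (m i)]
    (i0 : I) (H : ℝ → ℝ) : ∫ x, H (x i0) ∂(Measure.pi m) = ∫ t, H t ∂(m i0) := by
  obtain rfl : i0 = default := Subsingleton.elim _ _
  exact (measurePreserving_piUnique m).integral_comp
    (MeasurableEquiv.piUnique fun _ : I => ℝ).measurableEmbedding H

/-- a function which does not see the coordinate `g0`, times a function of this coordinate -/
lemma split_one (μ : G → Measure ℝ) [∀ g, SigmaFinite (μ g)] (g0 : G) (K : (G → ℝ) → ℝ)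
    (hK : ∀ θ r, K (Function.update θ g0 r) = K θ) :
    ∃ M : ℝ, ∀ H : ℝ → ℝ, ∫ θ, K θ * H (θ g0) ∂(Measure.pi μ) = M * ∫ t, H t ∂(μ g0) := by
  classical
  set p : G → Prop := fun g => g = g0 with hp
  have mp := measurePreserving_piEquivPiSubtypeProd (fun g => μ g) p
  set e := MeasurableEquiv.piEquivPiSubtypeProd (fun _ : G => ℝ) p with he
  let i0 : {g // p g} := ⟨g0, rfl⟩
  let K' : ({g // ¬ p g} → ℝ) → ℝ := fun y => K fun g => if h : p g then 0 else y ⟨g, h⟩
  refine ⟨∫ y, K' y ∂(Measure.pi fun g : {g // ¬ p g} => μ g), fun H => ?_⟩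
  have h1 : ∀ θ, K θ * H (θ g0) = K' (e θ).2 * H ((e θ).1 i0) := by
    intro θ
    congr 1
    show K θ = K fun g => if h : p g then 0 else θ g
    rw [← hK θ 0]
    congr 1
    funext g
    by_cases h : g = g0
    · subst h
      rw [Function.update_self, dif_pos rfl]
    · rw [Function.update_of_ne h, dif_neg h]
  have h2 := mp.integral_comp e.measurableEmbedding
    (fun z : ({g // p g} → ℝ) × ({g // ¬ p g} → ℝ) => H (z.1 i0) * K' z.2)
  rw [integral_prod_mul (fun x : {g // p g} → ℝ => H (x i0)) K'] at h2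
  have h3 : ∫ θ, K θ * H (θ g0) ∂(Measure.pi μ) =
      ∫ θ, H ((e θ).1 i0) * K' (e θ).2 ∂(Measure.pi μ) := by
    refine integral_congr_ae (Eventually.of_forall fun θ => ?_)
    simp only
    rw [h1 θ, mul_comm]
  rw [h3]
  refine h2.trans ?_
  rw [mul_comm]
  congr 1
  have hu : Unique {g // p g} := ⟨⟨i0⟩, fun g => Subtype.ext g.2⟩
  exact @one_pt {g // p g} (Subtype.fintype p) hu (fun g => μ g) (fun g => inferInstance) i0 H

end split

/-- integrals against `muU` -/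
lemma integral_muU {Th : Type} [MeasurableSpace Th] {ν : Measure Th} (hν : IsFiniteMeasure ν)
    {n : ℕ} {f : Th × Xs n → ℝ} (hf : Bm f) :
    ∫ w, f w ∂(muU ν n) = ∑ σ, ∫ θ, f (θ, σ) ∂ν := by
  have := dmx n
  unfold muU
  rw [integral_prod_symm _ hf.integrable, integral_count]

section gg

variable {G : Type} [Fintype G] [DecidableEq G] {n : ℕ} {LB LF : Type} [Fintype LB]
  [DecidableEq LB] [Fintype LF] [DecidableEq LF] {b : ℝ} {cB : LB → ℝ} {cF : LF → ℝ}
  {a : LF → (G → ℝ) → ℝ} {lam c : G → ℝ} {η x : ℝ} {g0 : G} {Lm : Finset LF}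

/-- `Lm` = the levels with the thermal variable `g0` -/
structure Mods (a : LF → (G → ℝ) → ℝ) (η : ℝ) (g0 : G) (Lm : Finset LF) : Prop where
  on : ∀ l ∈ Lm, ∀ θ, a l θ = al η (θ g0)
  off : ∀ l ∉ Lm, ∀ θ r, a l (Function.update θ g0 r) = a l θ

/-- the field which acts on the modulated levels -/
noncomputable def Gm (cF : LF → ℝ) (Lm : Finset LF) (u : Co n LB LF → ℝ) (σ : Xs n) : ℝ :=
  ∑ l ∈ Lm, ∑ j, cF l * sp σ j * u (fd LB j l)

/-- the rest of the energy -/
noncomputable def Eo (b : ℝ) (cB : LB → ℝ) (cF : LF → ℝ) (a : LF → (G → ℝ) → ℝ)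
    (Lm : Finset LF) (u : Co n LB LF → ℝ) (w : (G → ℝ) × Xs n) : ℝ :=
  (∑ e : Pair n × LB, b / √n * cB e.2 * SkS e.1 w.2 * u (bd LF e.1 e.2)) +
    ∑ l ∈ Lmᶜ, ∑ i, cF l * a l w.1 * sp w.2 i * u (fd LB i l)

lemma en_split (hM : Mods a η g0 Lm) (u : Co n LB LF → ℝ) (w : (G → ℝ) × Xs n) :
    ∑ e, SU b cB cF a e w * u e = Eo b cB cF a Lm u w + al η (w.1 g0) * Gm cF Lm u w.2 := by
  rw [Fintype.sum_sum_type, Fintype.sum_sum_type]
  have h1 : ∑ j : Fin n, SU b cB cF a (Sum.inr j : Co n LB LF) w * u (Sum.inr j) = 0 :=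
    Finset.sum_eq_zero fun j _ => by
      show (0 : ℝ) * _ = 0
      rw [zero_mul]
  have h2 : ∑ e : Fin n × LF, SU b cB cF a (Sum.inl (Sum.inr e) : Co n LB LF) w *
      u (Sum.inl (Sum.inr e)) = ∑ l, ∑ i, cF l * a l w.1 * sp w.2 i * u (fd LB i l) := by
    rw [Fintype.sum_prod_type, Finset.sum_comm]
    rfl
  rw [h1, h2, add_zero, ← Finset.sum_add_sum_compl Lm]
  have h3 : ∑ l ∈ Lm, ∑ i, cF l * a l w.1 * sp w.2 i * u (fd LB i l) =
      al η (w.1 g0) * Gm cF Lm u w.2 := by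
    unfold Gm
    rw [Finset.mul_sum]
    refine Finset.sum_congr rfl fun l hl => ?_
    rw [Finset.mul_sum]
    refine Finset.sum_congr rfl fun i _ => ?_
    rw [hM.on l hl]
    ring
  rw [h3]
  unfold Eo
  have h4 : ∑ e : Pair n × LB, SU b cB cF a (Sum.inl (Sum.inl e) : Co n LB LF) w *
      u (Sum.inl (Sum.inl e)) =
      ∑ e : Pair n × LB, b / √n * cB e.2 * SkS e.1 w.2 * u (bd LF e.1 e.2) := rfl
  rw [h4]
  ring

lemma Eo_upd (hM : Mods a η g0 Lm) (u : Co n LB LF → ℝ) (θ : G → ℝ) (σ : Xs n) (r : ℝ) :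
    Eo b cB cF a Lm u (Function.update θ g0 r, σ) = Eo b cB cF a Lm u (θ, σ) := by
  unfold Eo
  congr 1
  refine Finset.sum_congr rfl fun l hl => ?_
  refine Finset.sum_congr rfl fun i _ => ?_
  show cF l * a l (Function.update θ g0 r) * sp σ i * _ = cF l * a l θ * sp σ i * _
  rw [hM.off l (Finset.mem_compl.1 hl)]

lemma bm_alU (hη : 0 ≤ η) (g0 : G) : Bm fun w : (G → ℝ) × Xs n => al η (w.1 g0) := by
  refine Bm.of ((measurable_al η).comp ((measurable_pi_apply g0).comp measurable_fst))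
    (C := 1 + η) fun p => ?_
  have h1 := al_mem hη (p.1 g0)
  rw [abs_le]; constructor <;> linarith [h1.1, h1.2]

lemma bm_insU (η : ℝ) (g0 : G) : Bm fun w : (G → ℝ) × Xs n => ins η (w.1 g0) := by
  refine Bm.of ((measurable_ins η).comp ((measurable_pi_apply g0).comp measurable_fst))
    (C := 1) fun p => ?_
  rw [abs_of_nonneg (ins_nonneg _ _)]; exact ins_le _ _

lemma bm_sgU (g0 : G) : Bm fun w : (G → ℝ) × Xs n => sg (w.1 g0) :=
  Bm.of (measurable_sg.comp ((measurable_pi_apply g0).comp measurable_fst)) (C := 1)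
    fun p => (abs_sg (p.1 g0)).le

lemma bm_spU {Th : Type} [MeasurableSpace Th] (f : Xs n → ℝ) : Bm fun w : Th × Xs n => f w.2 := by
  have := dmx n
  refine Bm.of ((Measurable.of_discrete (f := f)).comp measurable_snd) (C := ∑ x, |f x|)
    fun p => ?_
  exact Finset.single_le_sum (f := fun x => |f x|) (fun _ _ => abs_nonneg _) (Finset.mem_univ p.2)

/-- **Integration by parts in one amplitude, for every value of the Gaussian coordinates.** -/
theorem av_ibpU (h : ∀ g, 0 < lam g) (hA : AmU a η) (hM : Mods a η g0 Lm)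
    {T : (G → ℝ) × Xs n → ℝ} (hT : Bm T)
    (hTi : ∀ θ σ r, T (Function.update θ g0 r, σ) = T (θ, σ)) (u : Co n LB LF → ℝ) :
    (∑ l ∈ Lm, ∑ j, cF l * (u (fd LB j l) * avm (muU (nuG lam η c) n) 1 (SU b cB cF a)
        (fun w => T w * ins η (w.1 g0) * sp w.2 j) u)) -
      c g0 * avm (muU (nuG lam η c) n) 1 (SU b cB cF a)
        (fun w => T w * ins η (w.1 g0) * al η (w.1 g0)) u =
    lam g0 * avm (muU (nuG lam η c) n) 1 (SU b cB cF a) (fun w => T w * sg (w.1 g0)) u := by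
  have hη := hA.nn
  have hν := finite_nuG h hη c
  have hG := gmU (n := n) b cB cF η hν (nuG_ne h hη c) hA
  set ν := nuG lam η c with hνd
  set SS := (SU b cB cF a : Co n LB LF → (G → ℝ) × Xs n → ℝ) with hSS
  have bTi : Bm fun w : (G → ℝ) × Xs n => T w * ins η (w.1 g0) := hT.mul (bm_insU η g0)
  have bG : Bm fun w : (G → ℝ) × Xs n => Gm cF Lm u w.2 := bm_spU _
  have e1 : (∑ l ∈ Lm, ∑ j, cF l * (u (fd LB j l) * avm (muU ν n) 1 SS
        (fun w => T w * ins η (w.1 g0) * sp w.2 j) u)) -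
      c g0 * avm (muU ν n) 1 SS (fun w => T w * ins η (w.1 g0) * al η (w.1 g0)) u =
      avm (muU ν n) 1 SS
        (fun w => T w * ins η (w.1 g0) * (Gm cF Lm u w.2 - c g0 * al η (w.1 g0))) u := by
    have a1 : (∑ l ∈ Lm, ∑ j, cF l * (u (fd LB j l) * avm (muU ν n) 1 SS
        (fun w => T w * ins η (w.1 g0) * sp w.2 j) u)) =
        avm (muU ν n) 1 SS (fun w => T w * ins η (w.1 g0) * Gm cF Lm u w.2) u := by
      have a2 : ∀ l ∈ Lm, (∑ j, cF l * (u (fd LB j l) * avm (muU ν n) 1 SS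
          (fun w => T w * ins η (w.1 g0) * sp w.2 j) u)) =
          avm (muU ν n) 1 SS (fun w => ∑ j, cF l * u (fd LB j l) *
            (T w * ins η (w.1 g0) * sp w.2 j)) u := by
        intro l _
        rw [hG.av_sum 1 Finset.univ fun j _ => Bm.const_mul _ (bTi.mul (bm_spU fun σ => sp σ j))]
        refine Finset.sum_congr rfl fun j _ => ?_
        rw [H196.av_mul]
        ring
      rw [Finset.sum_congr rfl a2, ← hG.av_sum 1 Lm fun l _ => Bm.sum _ fun j _ =>
        Bm.const_mul _ (bTi.mul (bm_spU fun σ => sp σ j))]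
      congr 1
      funext w
      unfold Gm
      rw [Finset.mul_sum]
      refine Finset.sum_congr rfl fun l _ => ?_
      rw [Finset.mul_sum]
      refine Finset.sum_congr rfl fun j _ => ?_
      ring
    rw [a1, ← H196.av_mul (muU ν n) 1 SS (c g0),
      ← hG.av_sub 1 (bTi.mul bG) ((bTi.mul (bm_alU hη g0)).const_mul (c g0))]
    congr 1
    funext w
    ring
  rw [e1, ← H196.av_mul (muU ν n) 1 SS (lam g0)]
  unfold avm
  congr 1
  have b1 : Bm fun w : (G → ℝ) × Xs n => ezm 1 SS u w *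
      (T w * ins η (w.1 g0) * (Gm cF Lm u w.2 - c g0 * al η (w.1 g0))) :=
    (hG.bez 1 u).mul (bTi.mul (bG.sub ((bm_alU hη g0).const_mul (c g0))))
  have b2 : Bm fun w : (G → ℝ) × Xs n => ezm 1 SS u w * (lam g0 * (T w * sg (w.1 g0))) :=
    (hG.bez 1 u).mul ((hT.mul (bm_sgU g0)).const_mul (lam g0))
  rw [integral_muU hν b1, integral_muU hν b2]
  refine Finset.sum_congr rfl fun σ _ => ?_
  -- one-dimensional identity
  set Gf := Gm cF Lm u σ with hGf
  have hfin : ∀ g, IsFiniteMeasure (nuA (lam g) η (c g)) := fun g => finite_nuA (h g) hη (c g)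
  obtain ⟨M, hMi⟩ := split_one (fun g => nuA (lam g) η (c g)) g0
    (fun θ => T (θ, σ) * Real.exp (Eo b cB cF a Lm u (θ, σ))) (fun θ r => by
      show T (_, σ) * Real.exp (Eo b cB cF a Lm u (_, σ)) = _
      rw [hTi, Eo_upd hM])
  have hW : ∀ y, HasDerivAt (fun y => Real.exp (y * Gf - c g0 / 2 * (y ^ 2 - 1)))
      ((Gf - c g0 * y) * Real.exp (y * Gf - c g0 / 2 * (y ^ 2 - 1))) y := by
    intro y
    have h1 : HasDerivAt (fun y : ℝ => y * Gf - c g0 / 2 * (y ^ 2 - 1)) (Gf - c g0 * y) y := by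
      have h2 := ((hasDerivAt_id y).mul_const Gf).sub
        ((((hasDerivAt_pow 2 y).sub_const 1).const_mul (c g0 / 2)))
      refine h2.congr_deriv ?_
      simp
      ring
    refine h1.exp.congr_deriv ?_
    ring
  have key := ibp_amp (h g0) hη hW (by fun_prop)
  have z1 : ∀ θ : G → ℝ, ezm 1 SS u (θ, σ) =
      Real.exp (Eo b cB cF a Lm u (θ, σ)) * Real.exp (al η (θ g0) * Gf) := by
    intro θ
    unfold ezm
    rw [one_mul, hSS, en_split hM, Real.exp_add]
  have f1 : ∫ θ, ezm 1 SS u (θ, σ) *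
      (T (θ, σ) * ins η (θ g0) * (Gf - c g0 * al η (θ g0))) ∂ν =
      M * ∫ t, ins η t * ((Gf - c g0 * al η t) * Real.exp (al η t * Gf))
        ∂(nuA (lam g0) η (c g0)) := by
    rw [← hMi fun t => ins η t * ((Gf - c g0 * al η t) * Real.exp (al η t * Gf))]
    refine integral_congr_ae (Eventually.of_forall fun θ => ?_)
    simp only
    rw [z1 θ]
    ring
  have f2 : ∫ θ, ezm 1 SS u (θ, σ) * (lam g0 * (T (θ, σ) * sg (θ g0))) ∂ν =
      M * ∫ t, lam g0 * (sg t * Real.exp (al η t * Gf)) ∂(nuA (lam g0) η (c g0)) := by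
    rw [← hMi fun t => lam g0 * (sg t * Real.exp (al η t * Gf))]
    refine integral_congr_ae (Eventually.of_forall fun θ => ?_)
    simp only
    rw [z1 θ]
    ring
  rw [f1, f2]
  congr 1
  rw [integral_nuA, integral_nuA]
  have k1 : ∀ t, cw η (c g0) t * (ins η t * ((Gf - c g0 * al η t) * Real.exp (al η t * Gf))) =
      ins η t * ((Gf - c g0 * al η t) *
        Real.exp (al η t * Gf - c g0 / 2 * (al η t ^ 2 - 1))) := by
    intro t
    unfold cw
    rw [sub_eq_add_neg (al η t * Gf), Real.exp_add (al η t * Gf)]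
    ring
  have k2 : ∀ t, cw η (c g0) t * (lam g0 * (sg t * Real.exp (al η t * Gf))) =
      lam g0 * (sg t * Real.exp (al η t * Gf - c g0 / 2 * (al η t ^ 2 - 1))) := by
    intro t
    unfold cw
    rw [sub_eq_add_neg (al η t * Gf), Real.exp_add (al η t * Gf)]
    ring
  simp only [k1, k2]
  rw [integral_const_mul, key]

/-- Gaussian integration by parts in one coordinate, the test function may depend on it. -/
theorem stein_U {ι Ω : Type} [Fintype ι] [DecidableEq ι] [MeasurableSpace Ω] {μ : Measure Ω}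
    {S : ι → Ω → ℝ} {M0 : ℝ} (hG : GM μ S M0) (x : ℝ) {Ψ Ψ' : (ι → ℝ) → ℝ} (e : ι)
    (hΨ : EG Ψ) (hΨ' : EG Ψ') (hd : PD e Ψ Ψ') {f : Ω → ℝ} (hf : Bm f) :
    ∫ u, u e * (Ψ u * (Zxm μ 1 S x u * avm μ 1 S f u)) ∂(gI ι) =
      (∫ u, Ψ' u * (Zxm μ 1 S x u * avm μ 1 S f u) ∂(gI ι)) +
      ∫ u, Ψ u * (Zxm μ 1 S x u * (avm μ 1 S (fun p => f p * S e p) u -
          (1 - x) * (avm μ 1 S f u * avm μ 1 S (S e) u))) ∂(gI ι) := by
  obtain ⟨F2, hC⟩ := hG.c2_Zav 1 x hf
  have h1 := hC.pd0 e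
  have h3 := hd.mul h1
  have eZ : EG fun u : ι → ℝ => Zxm μ 1 S x u * avm μ 1 S f u := hC.eg
  have e1 : EG fun u : ι → ℝ => Ψ u * (Zxm μ 1 S x u * avm μ 1 S f u) := hΨ.mul hC.eg
  have e2 := (hΨ'.mul hC.eg).add (hΨ.mul (hC.eg1 e))
  have h4 := h3.stein e1 e2
  rw [h4, ← integral_add (hΨ'.mul eZ).integrable]
  · refine integral_congr_ae (Eventually.of_forall fun u => ?_)
    simp only [one_mul]
  · have := (hΨ.mul (hC.eg1 e)).integrable
    simp only [one_mul] at this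
    exact this

/-- **The exact Ghirlanda–Guerra identity of one thermal amplitude in the ensemble `U`.** -/
theorem gg_exactU (h : ∀ g, 0 < lam g) (hA : AmU a η) (hM : Mods a η g0 Lm) (x : ℝ)
    {Ψ : (Co n LB LF → ℝ) → ℝ} {Ψ' : LF → Fin n → (Co n LB LF → ℝ) → ℝ} (hΨ : EG Ψ)
    (hΨ' : ∀ l ∈ Lm, ∀ j, EG (Ψ' l j)) (hd : ∀ l ∈ Lm, ∀ j, PD (fd LB j l) Ψ (Ψ' l j))
    {T : (G → ℝ) × Xs n → ℝ} (hT : Bm T)
    (hTi : ∀ θ σ r, T (Function.update θ g0 r, σ) = T (θ, σ)) :
    (∫ u, Ψ u * (Zxm (muU (nuG lam η c) n) 1 (SU b cB cF a) x u *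
        (((∑ l ∈ Lm, cF l ^ 2) * n - c g0) * avm (muU (nuG lam η c) n) 1 (SU b cB cF a)
            (fun w => T w * ins η (w.1 g0) * al η (w.1 g0)) u -
          (1 - x) * (∑ l ∈ Lm, cF l ^ 2) * ∑ j,
            avm (muU (nuG lam η c) n) 1 (SU b cB cF a)
              (fun w => T w * ins η (w.1 g0) * sp w.2 j) u *
            avm (muU (nuG lam η c) n) 1 (SU b cB cF a)
              (fun w => al η (w.1 g0) * sp w.2 j) u)) ∂(gI (Co n LB LF))) +
      ∑ l ∈ Lm, cF l * ∑ j, ∫ u, Ψ' l j u * (Zxm (muU (nuG lam η c) n) 1 (SU b cB cF a) x u *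
        avm (muU (nuG lam η c) n) 1 (SU b cB cF a)
          (fun w => T w * ins η (w.1 g0) * sp w.2 j) u) ∂(gI (Co n LB LF)) =
      lam g0 * ∫ u, Ψ u * (Zxm (muU (nuG lam η c) n) 1 (SU b cB cF a) x u *
        avm (muU (nuG lam η c) n) 1 (SU b cB cF a) (fun w => T w * sg (w.1 g0)) u)
          ∂(gI (Co n LB LF)) := by
  have hη := hA.nn
  have hν := finite_nuG h hη c
  have hG := gmU (n := n) b cB cF η hν (nuG_ne h hη c) hA
  set μ := muU (nuG lam η c) n with hμ
  set SS := (SU b cB cF a : Co n LB LF → (G → ℝ) × Xs n → ℝ) with hSS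
  set s2 := ∑ l ∈ Lm, cF l ^ 2 with hs2
  have bTi : Bm fun w : (G → ℝ) × Xs n => T w * ins η (w.1 g0) := hT.mul (bm_insU η g0)
  have bf : ∀ j, Bm fun w : (G → ℝ) × Xs n => T w * ins η (w.1 g0) * sp w.2 j := fun j =>
    bTi.mul (bm_spU fun σ => sp σ j)
  have bal : Bm fun w : (G → ℝ) × Xs n => T w * ins η (w.1 g0) * al η (w.1 g0) :=
    bTi.mul (bm_alU hη g0)
  have bas : ∀ j, Bm fun w : (G → ℝ) × Xs n => al η (w.1 g0) * sp w.2 j := fun j =>
    (bm_alU hη g0).mul (bm_spU fun σ => sp σ j)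
  have eZ := hG.eg_Zx 1 x
  -- the identity of the amplitude, integrated
  have e1 : lam g0 * ∫ u, Ψ u * (Zxm μ 1 SS x u * avm μ 1 SS (fun w => T w * sg (w.1 g0)) u)
        ∂(gI (Co n LB LF)) =
      (∑ l ∈ Lm, cF l * ∑ j, ∫ u, u (fd LB j l) * (Ψ u * (Zxm μ 1 SS x u *
          avm μ 1 SS (fun w => T w * ins η (w.1 g0) * sp w.2 j) u)) ∂(gI (Co n LB LF))) -
        c g0 * ∫ u, Ψ u * (Zxm μ 1 SS x u *
          avm μ 1 SS (fun w => T w * ins η (w.1 g0) * al η (w.1 g0)) u) ∂(gI (Co n LB LF)) := by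
    have i1 : ∀ l j, Integrable (fun u : Co n LB LF → ℝ => u (fd LB j l) * (Ψ u *
        (Zxm μ 1 SS x u * avm μ 1 SS (fun w => T w * ins η (w.1 g0) * sp w.2 j) u)))
        (gI (Co n LB LF)) := fun l j =>
      ((EG.coord (fd LB j l)).mul (hΨ.mul (eZ.mul (hG.eg_av 1 (bf j))))).integrable
    have i2 : Integrable (fun u : Co n LB LF → ℝ => Ψ u * (Zxm μ 1 SS x u *
        avm μ 1 SS (fun w => T w * ins η (w.1 g0) * al η (w.1 g0)) u)) (gI (Co n LB LF)) :=
      (hΨ.mul (eZ.mul (hG.eg_av 1 bal))).integrable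
    have i3 : ∀ l, Integrable (fun u : Co n LB LF → ℝ => ∑ j, u (fd LB j l) * (Ψ u *
        (Zxm μ 1 SS x u * avm μ 1 SS (fun w => T w * ins η (w.1 g0) * sp w.2 j) u)))
        (gI (Co n LB LF)) := fun l => integrable_finsetSum _ fun j _ => i1 l j
    rw [← integral_const_mul, ← integral_const_mul]
    have e2 : ∀ l ∈ Lm, cF l * ∑ j, ∫ u, u (fd LB j l) * (Ψ u * (Zxm μ 1 SS x u *
          avm μ 1 SS (fun w => T w * ins η (w.1 g0) * sp w.2 j) u)) ∂(gI (Co n LB LF)) =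
        ∫ u, cF l * ∑ j, u (fd LB j l) * (Ψ u * (Zxm μ 1 SS x u *
          avm μ 1 SS (fun w => T w * ins η (w.1 g0) * sp w.2 j) u)) ∂(gI (Co n LB LF)) := by
      intro l _
      rw [integral_const_mul, integral_finsetSum _ fun j _ => i1 l j]
    rw [Finset.sum_congr rfl e2, ← integral_finsetSum _ fun l _ => (i3 l).const_mul (cF l),
      ← integral_sub (integrable_finsetSum _ fun l _ => (i3 l).const_mul (cF l))
        (i2.const_mul (c g0))]
    refine integral_congr_ae (Eventually.of_forall fun u => ?_)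
    simp only
    have h1 := av_ibpU (b := b) (cB := cB) (cF := cF) (c := c) (n := n) h hA hM hT hTi u
    rw [← hμ, ← hSS] at h1
    have h2 : lam g0 * (Ψ u * (Zxm μ 1 SS x u * avm μ 1 SS (fun w => T w * sg (w.1 g0)) u)) =
        Ψ u * (Zxm μ 1 SS x u * (lam g0 * avm μ 1 SS (fun w => T w * sg (w.1 g0)) u)) := by ring
    rw [h2, ← h1, mul_sub, mul_sub]
    congr 1
    · rw [Finset.mul_sum, Finset.mul_sum]
      refine Finset.sum_congr rfl fun l _ => ?_
      rw [Finset.mul_sum, Finset.mul_sum, Finset.mul_sum]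
      refine Finset.sum_congr rfl fun j _ => ?_
      ring
    · ring
  -- Gaussian integration by parts
  have e3 : ∀ l ∈ Lm, ∀ j, ∫ u, u (fd LB j l) * (Ψ u * (Zxm μ 1 SS x u *
      avm μ 1 SS (fun w => T w * ins η (w.1 g0) * sp w.2 j) u)) ∂(gI (Co n LB LF)) =
      (∫ u, Ψ' l j u * (Zxm μ 1 SS x u *
        avm μ 1 SS (fun w => T w * ins η (w.1 g0) * sp w.2 j) u) ∂(gI (Co n LB LF))) +
      cF l * ∫ u, Ψ u * (Zxm μ 1 SS x u *
        (avm μ 1 SS (fun w => T w * ins η (w.1 g0) * al η (w.1 g0)) u -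
          (1 - x) * (avm μ 1 SS (fun w => T w * ins η (w.1 g0) * sp w.2 j) u *
            avm μ 1 SS (fun w => al η (w.1 g0) * sp w.2 j) u))) ∂(gI (Co n LB LF)) := by
    intro l hl j
    rw [stein_U hG x (fd LB j l) hΨ (hΨ' l hl j) (hd l hl j) (bf j)]
    congr 1
    rw [← integral_const_mul]
    refine integral_congr_ae (Eventually.of_forall fun u => ?_)
    simp only
    have a1 : avm μ 1 SS (fun w => T w * ins η (w.1 g0) * sp w.2 j * SS (fd LB j l) w) u =
        cF l * avm μ 1 SS (fun w => T w * ins η (w.1 g0) * al η (w.1 g0)) u := by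
      rw [← H196.av_mul]
      congr 1
      funext w
      rw [hSS, SU_fd, hM.on l hl]
      have := sp_mul_self w.2 j
      linear_combination (T w * ins η (w.1 g0) * al η (w.1 g0) * cF l) * this
    have a2 : avm μ 1 SS (SS (fd LB j l)) u =
        cF l * avm μ 1 SS (fun w => al η (w.1 g0) * sp w.2 j) u := by
      rw [← H196.av_mul]
      congr 1
      funext w
      rw [hSS, SU_fd, hM.on l hl]
      ring
    rw [a1, a2]
    ring
  have iA : Integrable (fun u : Co n LB LF → ℝ => Ψ u * (Zxm μ 1 SS x u *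
      avm μ 1 SS (fun w => T w * ins η (w.1 g0) * al η (w.1 g0)) u)) (gI (Co n LB LF)) :=
    (hΨ.mul (eZ.mul (hG.eg_av 1 bal))).integrable
  have iB : ∀ j, Integrable (fun u : Co n LB LF → ℝ => Ψ u * (Zxm μ 1 SS x u *
      (avm μ 1 SS (fun w => T w * ins η (w.1 g0) * sp w.2 j) u *
        avm μ 1 SS (fun w => al η (w.1 g0) * sp w.2 j) u))) (gI (Co n LB LF)) := fun j =>
    (hΨ.mul (eZ.mul ((hG.eg_av 1 (bf j)).mul (hG.eg_av 1 (bas j))))).integrable
  set A := ∫ u, Ψ u * (Zxm μ 1 SS x u *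
      avm μ 1 SS (fun w => T w * ins η (w.1 g0) * al η (w.1 g0)) u) ∂(gI (Co n LB LF)) with hAd
  set B : Fin n → ℝ := fun j => ∫ u, Ψ u * (Zxm μ 1 SS x u *
      (avm μ 1 SS (fun w => T w * ins η (w.1 g0) * sp w.2 j) u *
        avm μ 1 SS (fun w => al η (w.1 g0) * sp w.2 j) u)) ∂(gI (Co n LB LF)) with hBd
  have e4 : ∀ j, ∫ u, Ψ u * (Zxm μ 1 SS x u *
        (avm μ 1 SS (fun w => T w * ins η (w.1 g0) * al η (w.1 g0)) u -
          (1 - x) * (avm μ 1 SS (fun w => T w * ins η (w.1 g0) * sp w.2 j) u *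
            avm μ 1 SS (fun w => al η (w.1 g0) * sp w.2 j) u))) ∂(gI (Co n LB LF)) =
      A - (1 - x) * B j := by
    intro j
    rw [hAd, hBd]
    simp only
    rw [← integral_const_mul, ← integral_sub iA ((iB j).const_mul (1 - x))]
    refine integral_congr_ae (Eventually.of_forall fun u => ?_)
    simp only
    ring
  have e5 : ∫ u, Ψ u * (Zxm μ 1 SS x u *
        ((s2 * n - c g0) * avm μ 1 SS (fun w => T w * ins η (w.1 g0) * al η (w.1 g0)) u -
          (1 - x) * s2 * ∑ j, avm μ 1 SS (fun w => T w * ins η (w.1 g0) * sp w.2 j) u *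
            avm μ 1 SS (fun w => al η (w.1 g0) * sp w.2 j) u)) ∂(gI (Co n LB LF)) =
      (s2 * n - c g0) * A - (1 - x) * s2 * ∑ j, B j := by
    rw [hAd, hBd]
    simp only
    rw [← integral_finsetSum _ fun j _ => iB j, ← integral_const_mul, ← integral_const_mul,
      ← integral_sub (iA.const_mul _) ((integrable_finsetSum _ fun j _ => iB j).const_mul _)]
    refine integral_congr_ae (Eventually.of_forall fun u => ?_)
    simp only
    rw [← Finset.mul_sum, ← Finset.mul_sum]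
    ring
  rw [e1, e5]
  have e6 : ∀ l ∈ Lm, cF l * ∑ j, ∫ u, u (fd LB j l) * (Ψ u * (Zxm μ 1 SS x u *
      avm μ 1 SS (fun w => T w * ins η (w.1 g0) * sp w.2 j) u)) ∂(gI (Co n LB LF)) =
      (cF l * ∑ j, ∫ u, Ψ' l j u * (Zxm μ 1 SS x u *
        avm μ 1 SS (fun w => T w * ins η (w.1 g0) * sp w.2 j) u) ∂(gI (Co n LB LF))) +
      cF l ^ 2 * (n * A - (1 - x) * ∑ j, B j) := by
    intro l hl
    rw [Finset.sum_congr rfl fun j _ => e3 l hl j, Finset.sum_add_distrib, mul_add]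
    congr 1
    rw [Finset.sum_congr rfl fun j _ => by rw [e4 j], ← Finset.mul_sum, Finset.sum_sub_distrib,
      Finset.sum_const, Finset.card_univ, Fintype.card_fin, nsmul_eq_mul, ← Finset.mul_sum]
    ring
  rw [Finset.sum_congr rfl e6, Finset.sum_add_distrib, ← Finset.sum_mul, ← hs2]
  ring

end gg

end Vale.Agent.P146.H281.U
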