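import Vale.Agent.P146.H281.C3U
import Vale.Agent.P146.H646.DvU

/-!
# P146: the last square of the row equation in the ensemble `U`, normalised letters
-/

open MeasureTheory ProbabilityTheory

namespace Vale.Agent.P146.H281.C3

open Vale.Agent.P157.Lv hiding Dep
open Vale.Agent.P146.H196 Vale.Agent.P146.H646 Vale.Agent.P146.H475 Vale.Agent.P146.H816
  Vale.Agent.P146.H325 Vale.Agent.P146.H347 Vale.Agent.P146.H347.U Vale.Agent.P146.H161
  Vale.Agent.P146.H281.U Vale.Agent.P146.H463 Vale.Agent.P146.H615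

set_option linter.unusedSectionVars false

/-- the cubic number of the last square -/
noncomputable def NLc (b t wF η δ cc m4 : ℝ) : ℝ :=
  6000000 * (1 + η) ^ 2 * (δ * (2 * b ^ 4 * t ^ 2 * cc + 2 * wF ^ 2) +
    (8 * b ^ 8 * t ^ 4 * m4 + 8 * wF ^ 4) / δ)

variable {Θ : Type} [MeasurableSpace Θ] {n : ℕ} {LB LF : Type} [Fintype LB] [DecidableEq LB]
  [Fintype LF] [DecidableEq LF] {ν : Measure Θ} (hν : IsFiniteMeasure ν) (h0 : ν ≠ 0)
  (b : ℝ) (cB : LB → ℝ) (cF : LF → ℝ) {a : LF → Θ → ℝ} {η : ℝ} (hA : AmU a η)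
  {i0 : Fin n} {S : Finset (Fin n)} (BL : Finset LB) (FL : Finset LF)

include hν h0 hA in
/-- **The last square in the ensemble `U`, normalised letters.** -/
theorem c3_Un {x : ℝ} (hx0 : 0 ≤ x) (hx1 : x ≤ 1) (hη1 : η ≤ 1 / 2) (hi : i0 ∉ S) {r : Θ → ℝ}
    (hr : Measurable r) (hrη : ∀ θ, |r θ - 1| ≤ η) {cP : LF → ℝ}
    (hP : ∀ l ∈ FL, ∀ θ, cP l * (cF l * a l θ) = cP l ^ 2)
    (hcP : ∀ l ∈ FL, |cP l| ≤ |cF l|) {kp : ℝ} (hkp : |kp| ≤ 3)
    {t wF : ℝ} (ht : t = ∑ l ∈ BL, cB l ^ 2) (hwF : wF = (1 + η) ^ 2 * ∑ l ∈ FL, cF l ^ 2)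
    (hL : x ^ 2 * (b ^ 2 * t + wF) ≤ 1 / 4) {δ : ℝ} (hδ : 0 < δ) {cc m4 : ℝ}
    (hcc : R2U n ν b cB cF a x (Kset (insert i0 S) BL FL) S ≤ (n : ℝ) ^ 2 * cc)
    (hm4 : exU n ν b cB cF a x (Q4g (muU ν n) (SU b cB cF a) x
      (Kset (insert i0 S) BL FL) (fun (j : Fin n) (w : Θ × Xs n) => sp w.2 j) S) ≤ (n : ℝ) ^ 4 * m4) :
    exU n ν b cB cF a x (fun z => cxU n ν b cB cF a x (Kset S BL FL) (fun y =>
      (cxU n ν b cB cF a x (Kset (insert i0 S) BL FL)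
        (avU n ν b cB cF a (fun ω => r ω.1 * sp ω.2 i0)) y -
        lc (Rw i0 S BL FL) (cfr i0 b cB cP kp (fun j =>
          cxU n ν b cB cF a x (Kset S BL FL)
            (avU n ν b cB cF a (fun w => r w.1 * sp w.2 j))) z) y) ^ 2) z) ≤
      6 * (b ^ 2 * t / n * exU n ν b cB cF a x
        (DthU n ν b cB cF a x kp (Kset S BL FL) r S i0) + 40 * wF) +
      NLc b t wF η δ cc m4 := by
  have hη := hA.nn
  have hn : 0 < n := lt_of_le_of_lt (Nat.zero_le _) i0.2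
  have hn' : (0 : ℝ) < n := by exact_mod_cast hn
  have hrb : ∀ θ, |r θ| ≤ 1 + η := fun θ => by
    have h1 := abs_le.1 (hrη θ)
    rw [abs_le]; constructor <;> linarith [h1.1, h1.2]
  have hG := gmU (n := n) b cB cF η hν h0 hA
  have hw := hG.wt 1 x
  have bM : ∀ j : Fin n, BM (cxU n ν b cB cF a x (Kset S BL FL)
      (avU n ν b cB cF a (fun w => r w.1 * sp w.2 j))) := fun j =>
    hw.bm_cx _ (H347.bm hG 1 ((Bm.of (hr.comp measurable_fst) (C := 1 + η)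
      fun w : Θ × Xs n => hrb w.1).mul (bm_spU j)))
  have h1 := c3_U hν h0 b cB cF hA BL FL hx0 hx1 hη1 hi hr hrb hcP hkp
    (by rw [← ht, ← hwF]; exact hL) hP (M := fun j => cxU n ν b cB cF a x (Kset S BL FL)
      (avU n ν b cB cF a (fun w => r w.1 * sp w.2 j))) bM (fun j => dep_cx _) hδ
  rw [← ht, ← hwF] at h1
  have bT : ∀ j : Fin n, BM fun z => (cxU n ν b cB cF a x (Kset S BL FL)
          (H615.Th (avU n ν b cB cF a) x (fun ω => r ω.1) (fun ω => sp ω.2 i0)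
            (fun j ω => sp ω.2 j) j) z - kp * cxU n ν b cB cF a x (Kset S BL FL)
      (avU n ν b cB cF a (fun w => r w.1 * sp w.2 j)) z) ^ 2 := fun j =>
    bsq ((hw.bm_cx _ (bm_ThU hν h0 b cB cF hA x hr hrb i0 j)).sub
      ((BM.const kp).mul (bM j)))
  have e1 : ∑ j ∈ S, exU n ν b cB cF a x (fun z =>
        (cxU n ν b cB cF a x (Kset S BL FL)
          (H615.Th (avU n ν b cB cF a) x (fun ω => r ω.1) (fun ω => sp ω.2 i0)
            (fun j ω => sp ω.2 j) j) z - kp * cxU n ν b cB cF a x (Kset S BL FL)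
      (avU n ν b cB cF a (fun w => r w.1 * sp w.2 j)) z) ^ 2) =
      exU n ν b cB cF a x (DthU n ν b cB cF a x kp (Kset S BL FL) r S i0) :=
    (hw.ex_sum S fun j _ => bT j).symm
  rw [e1] at h1
  refine h1.trans ?_
  have e2 : b ^ 2 / n * t = b ^ 2 * t / n := by ring
  rw [e2]
  refine add_le_add le_rfl ?_
  unfold NLc
  refine mul_le_mul_of_nonneg_left (add_le_add (mul_le_mul_of_nonneg_left
    (add_le_add ?_ le_rfl) hδ.le) (div_le_div_of_nonneg_right (add_le_add ?_ le_rfl) hδ.le))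
    (by positivity)
  · calc 2 * (b ^ 2 * t / n) ^ 2 * R2U n ν b cB cF a x (Kset (insert i0 S) BL FL) S
        ≤ 2 * (b ^ 2 * t / n) ^ 2 * ((n : ℝ) ^ 2 * cc) :=
          mul_le_mul_of_nonneg_left hcc (by positivity)
      _ = 2 * b ^ 4 * t ^ 2 * cc := by field_simp
  · calc 8 * (b ^ 2 * t / n) ^ 4 * _ ≤ 8 * (b ^ 2 * t / n) ^ 4 * ((n : ℝ) ^ 4 * m4) :=
          mul_le_mul_of_nonneg_left hm4 (by positivity)
      _ = 8 * b ^ 8 * t ^ 4 * m4 := by field_simp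

end Vale.Agent.P146.H281.C3
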