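import Vale.Agent.P146.H281.U2
import Vale.Agent.P146.H420B.Ggr

/-!
The integration by parts of one thermal amplitude of the ensemble `U` in the letters of
`H420B.Ggr`: `ms_U : MS ..`, `aibp_U : AIbp ..`; the modulated levels are `{l // l ∈ Lm}`.
-/

open MeasureTheory ProbabilityTheory Filter

namespace Vale.Agent.P146.H281.U

open Vale.Agent.P157.Lv Vale.Agent.P146.H425 Vale.Agent.P146.H325 Vale.Agent.P146.H196
  Vale.Agent.P146.H646 Vale.Agent.P146.H475 Vale.Agent.P146.H816 Vale.Agent.P146.H347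

set_option linter.unusedSectionVars false

variable {G : Type} [Fintype G] [DecidableEq G] {n : ℕ} {LB LF : Type} [Fintype LB]
  [DecidableEq LB] [Fintype LF] [DecidableEq LF] {b : ℝ} {cB : LB → ℝ} {cF : LF → ℝ}
  {a : LF → (G → ℝ) → ℝ} {lam c : G → ℝ} {η : ℝ} {g0 : G} {Lm : Finset LF}

/-- the modulated levels of the variable `g0` -/
theorem ms_U (hη : 0 ≤ η) (hM : Mods a η g0 Lm) :
    H420B.MS (SU b cB cF a : Co n LB LF → (G → ℝ) × Xs n → ℝ)
      (fun (i : Fin n) (l : {l // l ∈ Lm}) => fd LB i l.1) (fun l => cF l.1)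
      (fun i w => sp w.2 i) (fun w => al η (w.1 g0)) (fun w => ins η (w.1 g0))
      (fun w => sg (w.1 g0)) where
  en i l w := by
    rw [SU_fd, hM.on l.1 l.2]
    ring
  bs i := bm_spU fun σ => sp σ i
  s2 i w := by rw [sq]; exact sp_mul_self w.2 i
  ba := bm_alU hη g0
  bI := bm_insU η g0
  I0 w := ins_nonneg _ _
  I1 w := ins_le _ _
  bg := bm_sgU g0
  g2 w := by rw [← sq_abs, abs_sg, one_pow]

/-- the total variance of the modulated levels -/
lemma vG_U : H420B.vG (fun l : {l // l ∈ Lm} => cF l.1) = ∑ l ∈ Lm, cF l ^ 2 :=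
  Finset.sum_coe_sort Lm fun l => cF l ^ 2

/-- **the integration by parts in the thermal variable `g0`** -/
theorem aibp_U (h : ∀ g, 0 < lam g) (hA : AmU a η) (hM : Mods a η g0 Lm)
    {T : (G → ℝ) × Xs n → ℝ} (hT : Bm T)
    (hTi : ∀ θ σ r, T (Function.update θ g0 r, σ) = T (θ, σ)) :
    H420B.AIbp (muU (nuG lam η c) n) (SU b cB cF a : Co n LB LF → (G → ℝ) × Xs n → ℝ)
      (fun (i : Fin n) (l : {l // l ∈ Lm}) => fd LB i l.1) (fun l => cF l.1)
      (fun i w => sp w.2 i) (fun w => al η (w.1 g0)) (fun w => ins η (w.1 g0))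
      (fun w => sg (w.1 g0)) (lam g0) (c g0) T := by
  intro u
  rw [← av_ibpU (b := b) (cB := cB) (cF := cF) (c := c) (n := n) h hA hM hT hTi u]
  congr 1
  rw [Finset.sum_comm]
  rw [← Finset.sum_coe_sort Lm fun l => ∑ j, cF l * (u (fd LB j l) *
    avm (muU (nuG lam η c) n) 1 (SU b cB cF a)
      (fun w => T w * ins η (w.1 g0) * sp w.2 j) u)]
  refine Finset.sum_congr rfl fun l _ => Finset.sum_congr rfl fun j _ => ?_
  ring

/-- the test functions of the spins -/
theorem aibp_U_sp (h : ∀ g, 0 < lam g) (hA : AmU a η) (hM : Mods a η g0 Lm) (f : Xs n → ℝ) :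
    H420B.AIbp (muU (nuG lam η c) n) (SU b cB cF a : Co n LB LF → (G → ℝ) × Xs n → ℝ)
      (fun (i : Fin n) (l : {l // l ∈ Lm}) => fd LB i l.1) (fun l => cF l.1)
      (fun i w => sp w.2 i) (fun w => al η (w.1 g0)) (fun w => ins η (w.1 g0))
      (fun w => sg (w.1 g0)) (lam g0) (c g0) (fun w => f w.2) :=
  aibp_U h hA hM (bm_spU f) fun _ _ _ => rfl

end Vale.Agent.P146.H281.U
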