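import Vale.Agent.P146.H615.ErAP

/-!
P146, the near end: the real number step. The lower bound of `H585.ne_gen` and the size of the row
equation at `φ = 1` contradict each other when all the errors are small against powers of
`h = √(E Y^2)`.
-/

namespace Vale.Agent.P146.H281.Ne

open Vale.Agent.P146.H615 (E1c)

/-- the linear coefficient -/
lemma lin_le {n m A t e : ℝ} (hn : 0 < n) (hm : 0 ≤ m) (hmn : m ≤ n / 2) (h1 : m / n ≤ e)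
    (h2 : 1 - A ^ 2 ≤ e) (h3 : 1 - t ≤ e) (hA0 : 0 ≤ A) (hA2 : A ≤ 2) :
    n / (n - m) - A ^ 2 * t ≤ 7 * e := by
  have he : 0 ≤ e := (div_nonneg hm hn.le).trans h1
  have h4 : 0 < n - m := by linarith
  have h5 : n / (n - m) ≤ 1 + 2 * (m / n) := by
    rw [div_le_iff₀ h4]
    have h6 : m / n * n = m := div_mul_cancel₀ m hn.ne'
    have h7 : m / n ≤ 1 / 2 := by rw [div_le_iff₀ hn]; linarith
    have h9 : (1 + 2 * (m / n)) * (n - m) = n + m - 2 * (m / n) * m := by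
      calc (1 + 2 * (m / n)) * (n - m) = n - m + 2 * (m / n * n) - 2 * (m / n) * m := by ring
        _ = _ := by rw [h6]; ring
    rw [h9]
    nlinarith [mul_le_mul_of_nonneg_right h7 hm]
  have h6 : A ^ 2 ≤ 4 := by nlinarith
  have h8 : A ^ 2 * (1 - t) ≤ A ^ 2 * e := mul_le_mul_of_nonneg_left h3 (sq_nonneg A)
  have h9 : A ^ 2 * e ≤ 4 * e := mul_le_mul_of_nonneg_right h6 he
  have h10 : A ^ 2 * (1 - t) = A ^ 2 - A ^ 2 * t := by ring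
  linarith

/-- the constant of the three terms -/
noncomputable def Kc (b b0 : ℝ) : ℝ :=
  160 * (16 / b ^ 2 + 1 + 8 / b ^ 3 + (10 * b + 8) + 4 * b ^ 2 * (23 + (312 + 24 / b) + 42)) +
  784 * 155446 * (15 / 2 * b ^ 6 + 20 * b ^ 4) +
  (44 * 6176 + 6784 / b ^ 2 * (48 * b0 ^ 2 + 6) ^ 2) * (5 * b ^ 4)

lemma Kc_pos {b b0 : ℝ} (hb : 0 < b) : 0 < Kc b b0 := by
  unfold Kc
  positivity

/-- `U ≤ κ h` -/
lemma u_le {h κ U : ℝ} (hh : 0 < h) (hκ : 1 ≤ κ) (hUk : U ^ 2 ≤ κ * h ^ 2) :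
    U ≤ κ * h := by
  have hκ0 : 0 < κ := by linarith
  have h0 : 0 ≤ κ * h := by positivity
  have h1 : κ * h ^ 2 * 1 ≤ κ * h ^ 2 * κ := mul_le_mul_of_nonneg_left hκ (by positivity)
  have h2 : U ^ 2 ≤ (κ * h) ^ 2 := by
    calc U ^ 2 ≤ κ * h ^ 2 * 1 := by rw [mul_one]; exact hUk
      _ ≤ κ * h ^ 2 * κ := h1
      _ = _ := by ring
  exact le_of_abs_le (sq_le_sq.1 h2 |>.trans (le_of_eq (abs_of_nonneg h0)))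

/-- `κ √rk ≤ ε h` -/
lemma s_le {h κ rk ε : ℝ} (hh : 0 < h) (hκ : 1 ≤ κ) (hε : 0 < ε)
    (hrkk : κ ^ 2 * rk ≤ ε ^ 2 * h ^ 2) : κ * √rk ≤ ε * h := by
  have hκ0 : 0 < κ := by linarith
  have h1 : κ * √rk = √(κ ^ 2 * rk) := by
    rw [Real.sqrt_mul (by positivity), Real.sqrt_sq hκ0.le]
  rw [h1, Real.sqrt_le_left (by positivity)]
  calc κ ^ 2 * rk ≤ ε ^ 2 * h ^ 2 := hrkk
    _ = _ := by ring

lemma kp_nonneg {b kp A : ℝ} (hb : 0 < b) (hA : A = b * kp) (hA0 : 0 ≤ A) : 0 ≤ kp := by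
  by_contra h0
  push Not at h0
  have : A < 0 := by rw [hA]; exact mul_neg_of_pos_of_neg hb h0
  linarith

section pieces

variable {b h κ U θ rk η x A kp wf ε H : ℝ}

lemma pc1 (hh : 0 < h) (hκ : 1 ≤ κ) (hUk : U ^ 2 ≤ κ * h ^ 2) (hθ : 0 ≤ θ)
    (hθk : κ * θ ≤ ε * h ^ 2) : U * θ ≤ ε * h ^ 3 := by
  calc U * θ ≤ κ * h * θ := mul_le_mul_of_nonneg_right (u_le hh hκ hUk) hθ
    _ = h * (κ * θ) := by ring
    _ ≤ h * (ε * h ^ 2) := mul_le_mul_of_nonneg_left hθk hh.le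
    _ = _ := by ring

lemma pc2 (hkp0 : 0 ≤ kp) (hη1 : η ≤ 1) (hwf : 0 ≤ wf) (hwfh : wf ≤ ε * h ^ 3) :
    wf * (kp * η) ≤ kp * (ε * h ^ 3) := by
  calc wf * (kp * η) ≤ wf * (kp * 1) :=
        mul_le_mul_of_nonneg_left (mul_le_mul_of_nonneg_left hη1 hkp0) hwf
    _ = kp * wf := by ring
    _ ≤ _ := mul_le_mul_of_nonneg_left hwfh hkp0

lemma pc4 (hh : 0 < h) (hκ : 1 ≤ κ) (hε : 0 < ε) (hUk : U ^ 2 ≤ κ * h ^ 2) (hη : 0 ≤ η)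
    (hηκ1 : η * κ ≤ 1) (hxh : x ≤ ε * h) : x * (U ^ 2 * η) ≤ ε * h ^ 3 := by
  have hκ0 : 0 < κ := by linarith
  calc x * (U ^ 2 * η) ≤ (ε * h) * (κ * h ^ 2 * η) :=
        mul_le_mul hxh (mul_le_mul_of_nonneg_right hUk hη) (by positivity) (by positivity)
    _ = ε * h ^ 3 * (η * κ) := by ring
    _ ≤ ε * h ^ 3 * 1 := mul_le_mul_of_nonneg_left hηκ1 (by positivity)
    _ = _ := by ring

lemma pc5 (hh : 0 < h) (hκ : 1 ≤ κ) (hε : 0 < ε) (hε1 : ε ≤ 1) (hU : 0 ≤ U)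
    (hUk : U ^ 2 ≤ κ * h ^ 2) (hrkk : κ ^ 2 * rk ≤ ε ^ 2 * h ^ 2) (hxh : x ≤ ε * h) :
    x * (U * √rk) ≤ ε * h ^ 3 := by
  have hκ0 : 0 < κ := by linarith
  have hs0 : 0 ≤ √rk := Real.sqrt_nonneg _
  calc x * (U * √rk) ≤ (ε * h) * (κ * h * √rk) :=
        mul_le_mul hxh (mul_le_mul_of_nonneg_right (u_le hh hκ hUk) hs0) (by positivity)
          (by positivity)
    _ = ε * h ^ 2 * (κ * √rk) := by ring
    _ ≤ ε * h ^ 2 * (ε * h) := mul_le_mul_of_nonneg_left (s_le hh hκ hε hrkk) (by positivity)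
    _ ≤ ε * h ^ 2 * (1 * h) := by
        refine mul_le_mul_of_nonneg_left ?_ (by positivity)
        exact mul_le_mul_of_nonneg_right hε1 hh.le
    _ = _ := by ring

lemma pq1 (hb : 0 < b) (hkp0 : 0 ≤ kp) (hkb : b * kp ≤ 2) (hH : 0 < H) (p1 : U * θ ≤ H)
    (p2 : wf * (kp * η) ≤ kp * H) :
    2 * kp * b ^ 2 * (5 / 2 * (U * θ) + wf * (kp * η)) ≤ (10 * b + 8) * H := by
  have e1 : 5 / 2 * (U * θ) + wf * (kp * η) ≤ 5 / 2 * H + kp * H := by linarith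
  have e2 := mul_le_mul_of_nonneg_left e1 (show 0 ≤ 2 * kp * b ^ 2 by positivity)
  refine e2.trans ?_
  have e3 : 2 * kp * b ^ 2 * (5 / 2 * H + kp * H) = (5 * b * (b * kp) + 2 * (b * kp) ^ 2) * H := by
    ring
  rw [e3]
  refine mul_le_mul_of_nonneg_right ?_ hH.le
  have e4 : 0 ≤ b * kp := mul_nonneg hb.le hkp0
  have e5 : (b * kp) ^ 2 ≤ 2 ^ 2 := pow_le_pow_left₀ e4 hkb 2
  have e6 : 5 * b * (b * kp) ≤ 5 * b * 2 := mul_le_mul_of_nonneg_left hkb (by positivity)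
  linarith

lemma pq2 (hb : 0 < b) (hkp0 : 0 ≤ kp) (hkb : b * kp ≤ 2) (hkp2 : kp ≤ 2 / b)
    (hx : 0 ≤ x) (hθ : 0 ≤ θ) (hη : 0 ≤ η) (hU : 0 ≤ U)
    (p3 : x * (U ^ 2 * θ) ≤ H) (p4 : x * (U ^ 2 * η) ≤ H) (p5 : x * (U * √rk) ≤ H) :
    x * kp ^ 2 * b ^ 4 * (U ^ 2 * (23 * θ + (312 + 12 * kp) * η) + 42 * (U * √rk)) ≤
      4 * b ^ 2 * (23 + (312 + 24 / b) + 42) * H := by
  have e1 : x * kp ^ 2 * b ^ 4 * (U ^ 2 * (23 * θ + (312 + 12 * kp) * η) + 42 * (U * √rk)) =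
      (b * kp) ^ 2 * b ^ 2 * (23 * (x * (U ^ 2 * θ)) + (312 + 12 * kp) * (x * (U ^ 2 * η)) +
        42 * (x * (U * √rk))) := by ring
  rw [e1]
  have e4 : 0 ≤ b * kp := mul_nonneg hb.le hkp0
  have e2 : (b * kp) ^ 2 ≤ 2 ^ 2 := pow_le_pow_left₀ e4 hkb 2
  have e6 : (312 + 12 * kp) * (x * (U ^ 2 * η)) ≤ (312 + 24 / b) * H := by
    refine mul_le_mul ?_ p4 (by positivity) (by positivity)
    have : 24 / b = 12 * (2 / b) := by ring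
    linarith
  have e5 : 23 * (x * (U ^ 2 * θ)) + (312 + 12 * kp) * (x * (U ^ 2 * η)) +
      42 * (x * (U * √rk)) ≤ (23 + (312 + 24 / b) + 42) * H := by
    linarith
  have e7 : 0 ≤ 23 * (x * (U ^ 2 * θ)) + (312 + 12 * kp) * (x * (U ^ 2 * η)) +
      42 * (x * (U * √rk)) := by positivity
  calc _ ≤ (2 ^ 2 * b ^ 2) * ((23 + (312 + 24 / b) + 42) * H) :=
        mul_le_mul (mul_le_mul_of_nonneg_right e2 (by positivity)) e5 e7 (by positivity)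
    _ = _ := by ring

end pieces

/-- the error of the row equation -/
lemma e1c_le {b h κ U θ rk η x A kp wf ε : ℝ} (hb : 0 < b) (hh : 0 < h) (hκ : 1 ≤ κ)
    (hU : 0 ≤ U) (hU1 : U ≤ 1) (hUk : U ^ 2 ≤ κ * h ^ 2) (hθ : 0 ≤ θ) (hθk : κ * θ ≤ ε * h ^ 2)
    (hrkk : κ ^ 2 * rk ≤ ε ^ 2 * h ^ 2) (hη : 0 ≤ η) (hη1 : η ≤ 1) (hηk : η * κ ≤ ε)
    (hx : 0 ≤ x) (hx1 : x ≤ 1) (hxh : x ≤ ε * h) (hA : A = b * kp) (hA0 : 0 ≤ A)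
    (hA2 : A ≤ 2) (hwf : 0 ≤ wf) (hwfh : wf ≤ ε * h ^ 3) (hε : 0 < ε) (hε1 : ε ≤ 1) :
    E1c b x kp η U wf θ rk ≤
      (10 * b + 8 + 4 * b ^ 2 * (23 + (312 + 24 / b) + 42)) * (ε * h ^ 3) := by
  have hkp0 := kp_nonneg hb hA hA0
  have hkb : b * kp ≤ 2 := by rw [← hA]; exact hA2
  have hkp2 : kp ≤ 2 / b := by
    rw [le_div_iff₀ hb]
    linarith
  have hH : 0 < ε * h ^ 3 := by positivity
  have p1 : U * θ ≤ ε * h ^ 3 := pc1 hh hκ hUk hθ hθk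
  have p3 : x * (U ^ 2 * θ) ≤ ε * h ^ 3 := by
    calc x * (U ^ 2 * θ) ≤ 1 * (U ^ 2 * θ) := mul_le_mul_of_nonneg_right hx1 (by positivity)
      _ = U * (U * θ) := by ring
      _ ≤ 1 * (U * θ) := mul_le_mul_of_nonneg_right hU1 (by positivity)
      _ = U * θ := one_mul _
      _ ≤ _ := p1
  have q1 := pq1 hb hkp0 hkb hH p1 (pc2 hkp0 hη1 hwf hwfh)
  have q2 := pq2 (rk := rk) hb hkp0 hkb hkp2 hx hθ hη hU p3
    (pc4 hh hκ hε hUk hη (hηk.trans hε1) hxh) (pc5 hh hκ hε hε1 hU hUk hrkk hxh)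
  unfold E1c
  refine (add_le_add q1 q2).trans (le_of_eq ?_)
  ring

section pieces2

variable {b c b0 h κ U θ rk pb η x t A kp wf lin q1 inc C3 ε : ℝ}

lemma rc1 (hb : 0 < b) (hε : 0 < ε) (ht : 1 / 2 ≤ t) (hq1 : 0 ≤ q1)
    (hq1h : b ^ 2 * t * q1 ≤ h) (hlin : lin ≤ 8 * ε * h ^ 2) :
    lin * q1 ≤ 16 / b ^ 2 * (ε * h ^ 3) := by
  have e1 : lin * q1 ≤ 8 * ε * h ^ 2 * q1 := mul_le_mul_of_nonneg_right hlin hq1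
  have e2 : q1 ≤ 2 * h / b ^ 2 := by
    rw [le_div_iff₀ (by positivity)]
    have := mul_le_mul_of_nonneg_right ht (show 0 ≤ b ^ 2 * q1 by positivity)
    linarith
  have e3 := mul_le_mul_of_nonneg_left e2 (show 0 ≤ 8 * ε * h ^ 2 by positivity)
  calc lin * q1 ≤ 8 * ε * h ^ 2 * (2 * h / b ^ 2) := e1.trans e3
    _ = _ := by ring

lemma rc2 (hb : 0 < b) (hh : 0 < h) (hε : 0 < ε) (hxh : x ≤ ε * h) (hA0 : 0 ≤ A)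
    (hA2 : A ≤ 2) : x * b * A ^ 3 * (h ^ 2 / b ^ 4) ≤ 8 / b ^ 3 * (ε * h ^ 3) := by
  have e1 : A ^ 3 ≤ 2 ^ 3 := pow_le_pow_left₀ hA0 hA2 3
  have e2 : x * A ^ 3 ≤ ε * h * 2 ^ 3 := mul_le_mul hxh e1 (by positivity) (by positivity)
  have e3 : x * b * A ^ 3 * (h ^ 2 / b ^ 4) = (x * A ^ 3) * (h ^ 2 / b ^ 3) := by
    field_simp
  rw [e3]
  calc (x * A ^ 3) * (h ^ 2 / b ^ 3) ≤ (ε * h * 2 ^ 3) * (h ^ 2 / b ^ 3) :=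
        mul_le_mul_of_nonneg_right e2 (by positivity)
    _ = _ := by ring

lemma rd1 (hb : 0 < b) (hh : 0 < h) (hκ : 1 ≤ κ) (hUk : U ^ 2 ≤ κ * h ^ 2)
    (hrkk : κ ^ 2 * rk ≤ ε ^ 2 * h ^ 2) (ht1 : t ≤ 1) (hε : 0 < ε)
    (hηη : η ^ 2 * κ ≤ ε) :
    (3 / 2 * (b ^ 2 * t * √rk) + 4 * η ^ 2 * h) * (5 * b ^ 4 * U ^ 2) ≤
      (15 / 2 * b ^ 6 + 20 * b ^ 4) * (ε * h ^ 3) := by
  have hκ0 : 0 < κ := by linarith
  have hs0 : 0 ≤ √rk := Real.sqrt_nonneg _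
  have hG : 5 * b ^ 4 * U ^ 2 ≤ 5 * b ^ 4 * (κ * h ^ 2) :=
    mul_le_mul_of_nonneg_left hUk (by positivity)
  have e1 : b ^ 2 * t * √rk ≤ b ^ 2 * √rk := by
    calc b ^ 2 * t * √rk = t * (b ^ 2 * √rk) := by ring
      _ ≤ 1 * (b ^ 2 * √rk) := mul_le_mul_of_nonneg_right ht1 (by positivity)
      _ = _ := one_mul _
  have e2 := mul_le_mul_of_nonneg_left (s_le hh hκ hε hrkk)
    (show 0 ≤ 15 / 2 * b ^ 6 * h ^ 2 by positivity)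
  have e3 := mul_le_mul_of_nonneg_left hηη (show 0 ≤ 20 * b ^ 4 * h ^ 3 by positivity)
  have e4 : 3 / 2 * (b ^ 2 * t * √rk) + 4 * η ^ 2 * h ≤ 3 / 2 * (b ^ 2 * √rk) + 4 * η ^ 2 * h := by
    linarith
  calc (3 / 2 * (b ^ 2 * t * √rk) + 4 * η ^ 2 * h) * (5 * b ^ 4 * U ^ 2)
      ≤ (3 / 2 * (b ^ 2 * √rk) + 4 * η ^ 2 * h) * (5 * b ^ 4 * (κ * h ^ 2)) :=
        mul_le_mul e4 hG (by positivity) (by positivity)
    _ = 15 / 2 * b ^ 6 * h ^ 2 * (κ * √rk) + 20 * b ^ 4 * h ^ 3 * (η ^ 2 * κ) := by ring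
    _ ≤ 15 / 2 * b ^ 6 * h ^ 2 * (ε * h) + 20 * b ^ 4 * h ^ 3 * ε := add_le_add e2 e3
    _ = _ := by ring

lemma rd2 (hb : 0 < b) (hh : 0 < h) (hκ : 1 ≤ κ) (hUk : U ^ 2 ≤ κ * h ^ 2)
    (hkp0 : 0 ≤ kp) (hkb : b * kp ≤ 2) (hηη : η ^ 2 * κ ≤ ε) (hxx : x ^ 2 * κ ≤ ε) :
    (44 * (48 * η + 28 * x) ^ 2 + 1696 * (kp ^ 2 * (x * (48 * b0 ^ 2 + 6)) ^ 2)) *
      (h * (5 * b ^ 4 * U ^ 2)) ≤
      (44 * 6176 + 6784 / b ^ 2 * (48 * b0 ^ 2 + 6) ^ 2) * (5 * b ^ 4) * (ε * h ^ 3) := by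
  have hκ0 : 0 < κ := by linarith
  have hG : 5 * b ^ 4 * U ^ 2 ≤ 5 * b ^ 4 * (κ * h ^ 2) :=
    mul_le_mul_of_nonneg_left hUk (by positivity)
  have e1 : (48 * η + 28 * x) ^ 2 ≤ 4608 * η ^ 2 + 1568 * x ^ 2 := by
    have := sq_nonneg (48 * η - 28 * x)
    nlinarith
  have e2 : kp ^ 2 ≤ 4 / b ^ 2 := by
    rw [le_div_iff₀ (by positivity)]
    have e5 : (b * kp) ^ 2 ≤ 2 ^ 2 := pow_le_pow_left₀ (mul_nonneg hb.le hkp0) hkb 2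
    calc kp ^ 2 * b ^ 2 = (b * kp) ^ 2 := by ring
      _ ≤ 2 ^ 2 := e5
      _ = 4 := by norm_num
  have e3 : kp ^ 2 * (x * (48 * b0 ^ 2 + 6)) ^ 2 ≤ 4 / b ^ 2 * (x * (48 * b0 ^ 2 + 6)) ^ 2 :=
    mul_le_mul_of_nonneg_right e2 (sq_nonneg _)
  have e4 : 44 * (48 * η + 28 * x) ^ 2 + 1696 * (kp ^ 2 * (x * (48 * b0 ^ 2 + 6)) ^ 2) ≤
      44 * (4608 * η ^ 2 + 1568 * x ^ 2) + 6784 / b ^ 2 * (48 * b0 ^ 2 + 6) ^ 2 * x ^ 2 := by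
    have e5 : 6784 / b ^ 2 * (48 * b0 ^ 2 + 6) ^ 2 * x ^ 2 =
        1696 * (4 / b ^ 2 * (x * (48 * b0 ^ 2 + 6)) ^ 2) := by ring
    rw [e5]
    linarith
  have e6 : h * (5 * b ^ 4 * U ^ 2) ≤ h * (5 * b ^ 4 * (κ * h ^ 2)) :=
    mul_le_mul_of_nonneg_left hG hh.le
  refine (mul_le_mul e4 e6 (by positivity) (by positivity)).trans ?_
  have e7 : (44 * (4608 * η ^ 2 + 1568 * x ^ 2) +
      6784 / b ^ 2 * (48 * b0 ^ 2 + 6) ^ 2 * x ^ 2) * (h * (5 * b ^ 4 * (κ * h ^ 2))) =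
      (44 * (4608 * (η ^ 2 * κ) + 1568 * (x ^ 2 * κ)) +
      6784 / b ^ 2 * (48 * b0 ^ 2 + 6) ^ 2 * (x ^ 2 * κ)) * (5 * b ^ 4 * h ^ 3) := by ring
  rw [e7]
  have e9 := mul_le_mul_of_nonneg_left hxx
    (show 0 ≤ 6784 / b ^ 2 * (48 * b0 ^ 2 + 6) ^ 2 by positivity)
  have e8 : 44 * (4608 * (η ^ 2 * κ) + 1568 * (x ^ 2 * κ)) +
      6784 / b ^ 2 * (48 * b0 ^ 2 + 6) ^ 2 * (x ^ 2 * κ) ≤
      44 * (6176 * ε) + 6784 / b ^ 2 * (48 * b0 ^ 2 + 6) ^ 2 * ε := by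
    refine add_le_add ?_ e9
    linarith
  refine (mul_le_mul_of_nonneg_right e8 (by positivity)).trans (le_of_eq ?_)
  ring

lemma rg (hb : 0 < b) (hh : 0 < h) (hκ : 1 ≤ κ) (hUk : U ^ 2 ≤ κ * h ^ 2)
    (hpbk : κ ^ 2 * pb ≤ ε) (hεb : 110 * b ^ 4 * √ε ≤ 1) :
    h ^ 2 / 2 ≤ h ^ 2 - 11 * (5 * b ^ 4 * U ^ 2) * √pb := by
  have hκ0 : 0 < κ := by linarith
  have e1 : κ * √pb ≤ √ε := by
    have e2 : κ * √pb = √(κ ^ 2 * pb) := by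
      rw [Real.sqrt_mul (by positivity), Real.sqrt_sq hκ0.le]
    rw [e2]
    exact Real.sqrt_le_sqrt hpbk
  have e3 : 11 * (5 * b ^ 4 * U ^ 2) * √pb ≤ 55 * b ^ 4 * h ^ 2 * (κ * √pb) := by
    have e4 := mul_le_mul_of_nonneg_right hUk (show 0 ≤ 55 * b ^ 4 * √pb by positivity)
    calc 11 * (5 * b ^ 4 * U ^ 2) * √pb = U ^ 2 * (55 * b ^ 4 * √pb) := by ring
      _ ≤ κ * h ^ 2 * (55 * b ^ 4 * √pb) := e4
      _ = _ := by ring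
  have e5 := mul_le_mul_of_nonneg_left e1 (show 0 ≤ 55 * b ^ 4 * h ^ 2 by positivity)
  have e6 := mul_le_mul_of_nonneg_left hεb (show 0 ≤ h ^ 2 / 2 by positivity)
  have e7 : h ^ 2 / 2 * (110 * b ^ 4 * √ε) = 55 * b ^ 4 * h ^ 2 * √ε := by ring
  rw [e7] at e6
  linarith

lemma rl (hh : 0 < h) : c ^ 2 / 16 * h ^ 3 ≤ c ^ 2 / 4 * (h ^ 2 / 2 * √(h ^ 2 / 2)) := by
  have hsq : h / 2 ≤ √(h ^ 2 / 2) := by
    rw [Real.le_sqrt (by positivity) (by positivity)]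
    have := sq_nonneg h
    nlinarith
  have e1 := mul_le_mul_of_nonneg_left hsq (show 0 ≤ c ^ 2 / 4 * (h ^ 2 / 2) by positivity)
  calc c ^ 2 / 16 * h ^ 3 = c ^ 2 / 4 * (h ^ 2 / 2) * (h / 2) := by ring
    _ ≤ _ := e1
    _ = _ := by ring

lemma rfin {T1 T2 T3 H : ℝ} (hh : 0 < h) (hH : H = ε * h ^ 3)
    (hεc : 16 * Kc b b0 * ε < c ^ 2)
    (a1 : T1 ≤ (16 / b ^ 2 + 1 + 8 / b ^ 3 + (10 * b + 8) +
      4 * b ^ 2 * (23 + (312 + 24 / b) + 42)) * H)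
    (a2 : T2 ≤ (15 / 2 * b ^ 6 + 20 * b ^ 4) * H)
    (a3 : T3 ≤ (44 * 6176 + 6784 / b ^ 2 * (48 * b0 ^ 2 + 6) ^ 2) * (5 * b ^ 4) * H)
    (hf : c ^ 2 / 16 * h ^ 3 ≤ 160 * T1 + 784 * 155446 * T2 + T3) : False := by
  have h1 : 160 * T1 + 784 * 155446 * T2 + T3 ≤ Kc b b0 * H := by
    unfold Kc
    have e1 := mul_le_mul_of_nonneg_left a2 (show (0 : ℝ) ≤ 784 * 155446 by norm_num)
    have e2 := mul_le_mul_of_nonneg_left a1 (show (0 : ℝ) ≤ 160 by norm_num)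
    refine (add_le_add (add_le_add e2 e1) a3).trans (le_of_eq ?_)
    ring
  have h2 : c ^ 2 / 16 * h ^ 3 ≤ Kc b b0 * ε * h ^ 3 := by
    refine (hf.trans h1).trans (le_of_eq ?_)
    rw [hH]; ring
  have h3 : c ^ 2 / 16 ≤ Kc b b0 * ε := le_of_mul_le_mul_right h2 (by positivity)
  linarith

end pieces2

/-- **The real number step of the near end.** -/
theorem neR_core {b c b0 h κ U θ rk pb η x t A kp wf lin q1 inc C3 ε : ℝ} (hb : 0 < b)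
    (hh : 0 < h) (hκ : 1 ≤ κ)
    (hU : 0 ≤ U) (hU1 : U ≤ 1) (hUk : U ^ 2 ≤ κ * h ^ 2) (hθ : 0 ≤ θ) (hθk : κ * θ ≤ ε * h ^ 2)
    (hrkk : κ ^ 2 * rk ≤ ε ^ 2 * h ^ 2) (hpbk : κ ^ 2 * pb ≤ ε)
    (hη : 0 ≤ η) (hηk : η * κ ≤ ε)
    (hx : 0 ≤ x) (hxh : x ≤ ε * h) (hxk : x * κ ≤ ε) (ht : 1 / 2 ≤ t) (ht1 : t ≤ 1)
    (hA : A = b * kp) (hA0 : 0 ≤ A)
    (hA2 : A ≤ 2) (hwf : 0 ≤ wf) (hwfh : wf ≤ ε * h ^ 3) (hq1 : 0 ≤ q1)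
    (hq1h : b ^ 2 * t * q1 ≤ h) (hlin : lin ≤ 8 * ε * h ^ 2) (hinc : inc ≤ ε * h ^ 3)
    (hC3 : C3 ≤ lin * q1 + inc + x * b * A ^ 3 * (h ^ 2 / b ^ 4) + E1c b x kp η U wf θ rk)
    (hε : 0 < ε) (hε1 : ε ≤ 1) (hεb : 110 * b ^ 4 * √ε ≤ 1) (hεc : 16 * Kc b b0 * ε < c ^ 2)
    (hne : ∀ A', 0 ≤ A' → A' ≤ h ^ 2 - 11 * (5 * b ^ 4 * U ^ 2) * √pb →
      c ^ 2 / 4 * (A' * √A') ≤ 160 * C3 +
        784 * 155446 * ((3 / 2 * (b ^ 2 * t * √rk) + 4 * η ^ 2 * h) * (5 * b ^ 4 * U ^ 2)) +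
        (44 * (48 * η + 28 * x) ^ 2 + 1696 * (kp ^ 2 * (x * (48 * b0 ^ 2 + 6)) ^ 2)) *
          (h * (5 * b ^ 4 * U ^ 2))) : False := by
  have hκ0 : 0 < κ := by linarith
  have hkp0 := kp_nonneg hb hA hA0
  have hkb : b * kp ≤ 2 := by rw [← hA]; exact hA2
  have hle : ∀ {z : ℝ}, 0 ≤ z → z * κ ≤ ε → z ≤ 1 := fun {z} hz hzk =>
    calc z = z * 1 := (mul_one z).symm
      _ ≤ z * κ := mul_le_mul_of_nonneg_left hκ hz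
      _ ≤ ε := hzk
      _ ≤ 1 := hε1
  have hη1 : η ≤ 1 := hle hη hηk
  have hx1 : x ≤ 1 := hle hx hxk
  have hle2 : ∀ {z : ℝ}, 0 ≤ z → z ≤ 1 → z * κ ≤ ε → z ^ 2 * κ ≤ ε := fun {z} hz hz1 hzk =>
    calc z ^ 2 * κ = z * (z * κ) := by ring
      _ ≤ 1 * (z * κ) := mul_le_mul_of_nonneg_right hz1 (mul_nonneg hz hκ0.le)
      _ = z * κ := one_mul _
      _ ≤ ε := hzk
  have hE := e1c_le hb hh hκ hU hU1 hUk hθ hθk hrkk hη hη1 hηk hx hx1 hxh hA hA0 hA2 hwf hwfh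
    hε hε1
  have c1 := rc1 hb hε ht hq1 hq1h hlin
  have c2 := rc2 hb hh hε hxh hA0 hA2
  have c3 : C3 ≤ (16 / b ^ 2 + 1 + 8 / b ^ 3 + (10 * b + 8) +
      4 * b ^ 2 * (23 + (312 + 24 / b) + 42)) * (ε * h ^ 3) := by
    have e : (16 / b ^ 2 + 1 + 8 / b ^ 3 + (10 * b + 8) +
      4 * b ^ 2 * (23 + (312 + 24 / b) + 42)) * (ε * h ^ 3) =
      16 / b ^ 2 * (ε * h ^ 3) + ε * h ^ 3 + 8 / b ^ 3 * (ε * h ^ 3) +
      (10 * b + 8 + 4 * b ^ 2 * (23 + (312 + 24 / b) + 42)) * (ε * h ^ 3) := by ring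
    rw [e]
    exact hC3.trans (add_le_add (add_le_add (add_le_add c1 hinc) c2) hE)
  have d1 := rd1 (rk := rk) hb hh hκ hUk hrkk ht1 hε (hle2 hη hη1 hηk)
  have d2 := rd2 (b0 := b0) hb hh hκ hUk hkp0 hkb (hle2 hη hη1 hηk) (hle2 hx hx1 hxk)
  have hfin := hne (h ^ 2 / 2) (by positivity) (rg hb hh hκ hUk hpbk hεb)
  exact rfin hh rfl hεc c3 d1 d2 ((rl hh).trans hfin)

/-- **The real number step of the near end**, `h2 = E Y^2`. -/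
theorem neR_false {b c : ℝ} (hb : 0 < b) (hc : 0 < c) (b0 : ℝ) : ∃ ε : ℝ, 0 < ε ∧ ε ≤ 1 ∧
    ∀ h2 κ U θ rk pb η x t A kp wf lin q1 inc C3 : ℝ, 0 < h2 → 1 ≤ κ → 0 ≤ U → U ≤ 1 →
      U ^ 2 ≤ κ * h2 → 0 ≤ θ → κ * θ ≤ ε * h2 → κ ^ 2 * rk ≤ ε ^ 2 * h2 →
      κ ^ 2 * pb ≤ ε → 0 ≤ η → η * κ ≤ ε → 0 ≤ x → x ≤ ε * √h2 → x * κ ≤ ε → 1 / 2 ≤ t →
      t ≤ 1 → A = b * kp → 0 ≤ A → A ≤ 2 → 0 ≤ wf → wf ≤ ε * (h2 * √h2) → 0 ≤ q1 →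
      b ^ 2 * t * q1 ≤ √h2 → lin ≤ 8 * ε * h2 → inc ≤ ε * (h2 * √h2) →
      C3 ≤ lin * q1 + inc + x * b * A ^ 3 * (h2 / b ^ 4) + E1c b x kp η U wf θ rk →
      (∀ A', 0 ≤ A' → A' ≤ h2 - 11 * (5 * b ^ 4 * U ^ 2) * √pb →
        c ^ 2 / 4 * (A' * √A') ≤ 160 * C3 +
          784 * 155446 * ((3 / 2 * (b ^ 2 * t * √rk) + 4 * η ^ 2 * √h2) *
            (5 * b ^ 4 * U ^ 2)) +
          (44 * (48 * η + 28 * x) ^ 2 + 1696 * (kp ^ 2 * (x * (48 * b0 ^ 2 + 6)) ^ 2)) *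
            (√h2 * (5 * b ^ 4 * U ^ 2))) → False := by
  have hK := Kc_pos (b0 := b0) hb
  obtain ⟨ε, hεd⟩ : ∃ ε : ℝ, ε = min 1 (min ((1 / (110 * b ^ 4)) ^ 2)
    (c ^ 2 / (32 * Kc b b0))) := ⟨_, rfl⟩
  have hε : 0 < ε := by
    rw [hεd]
    exact lt_min one_pos (lt_min (by positivity) (by positivity))
  have hε1 : ε ≤ 1 := by rw [hεd]; exact min_le_left _ _
  have hε2 : ε ≤ (1 / (110 * b ^ 4)) ^ 2 := by
    rw [hεd]; exact (min_le_right _ _).trans (min_le_left _ _)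
  have hε3 : ε ≤ c ^ 2 / (32 * Kc b b0) := by
    rw [hεd]; exact (min_le_right _ _).trans (min_le_right _ _)
  have hεb : 110 * b ^ 4 * √ε ≤ 1 := by
    have e1 : √ε ≤ 1 / (110 * b ^ 4) := by
      rw [Real.sqrt_le_left (by positivity)]
      exact hε2
    have e2 := mul_le_mul_of_nonneg_left e1 (show 0 ≤ 110 * b ^ 4 by positivity)
    have e3 : 110 * b ^ 4 * (1 / (110 * b ^ 4)) = 1 := by field_simp
    linarith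
  have hεc : 16 * Kc b b0 * ε < c ^ 2 := by
    rw [le_div_iff₀ (by positivity)] at hε3
    have : 0 < c ^ 2 := by positivity
    linarith
  clear hεd
  refine ⟨ε, hε, hε1, ?_⟩
  intro h2 κ U θ rk pb η x t A kp wf lin q1 inc C3 hh2 hκ hU hU1 hUk hθ hθk hrkk hpbk
    hη hηk hx hxh hxk ht ht1 hA hA0 hA2 hwf hwfh hq1 hq1h hlin hinc hC3 hne
  obtain ⟨h, hhd⟩ : ∃ h, h = √h2 := ⟨_, rfl⟩
  have hh : 0 < h := by rw [hhd]; exact Real.sqrt_pos.2 hh2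
  have e2 : h2 = h ^ 2 := by rw [hhd]; exact (Real.sq_sqrt hh2.le).symm
  have e3 : h2 * √h2 = h ^ 3 := by rw [← hhd, e2]; ring
  rw [e3] at hwfh hinc
  rw [← hhd] at hxh hq1h hne
  rw [e2] at hUk hθk hrkk hlin hC3 hne
  exact neR_core hb hh hκ hU hU1 hUk hθ hθk hrkk hpbk hη hηk hx hxh hxk ht ht1 hA hA0
    hA2 hwf hwfh hq1 hq1h hlin hinc hC3 hε hε1 hεb hεc hne

end Vale.Agent.P146.H281.Ne
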