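import Vale.Agent.P146.H585.RowU
import Vale.Agent.P146.H646.DU
import Vale.Agent.P146.H980.C3Main
import Vale.Agent.P146.H463.NeIn
import Vale.Agent.P146.H347.ModU
import Vale.Agent.P146.H161.RowI1
import Vale.Agent.P146.H317.C3v

/-!
# P146: the last square of the row equation in the ensemble `U`

`c3_U`: frozen coordinates `Kset S BL FL` (modulated levels allowed in `FL`), the mean of the last
square of the row of the site `i0 ∉ S` is at most
`6 ((b² t / n) ∑_j ex (cx K Θ_j - kp M_j)² + 40 wF) +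
6000000 (1+η)² (δ (2 b⁴ t² CC' + 2 wF²) + (8 b⁸ t⁴ Q4' + 8 wF⁴) / δ)`,
with the two point and four point numbers of `S` at `Kset (insert i0 S) BL FL`.
-/

open MeasureTheory ProbabilityTheory

namespace Vale.Agent.P146.H281.C3

open Vale.Agent.P157.Lv hiding Dep
open Vale.Agent.P146.H196 Vale.Agent.P146.H646 Vale.Agent.P146.H475 Vale.Agent.P146.H816
  Vale.Agent.P146.H325 Vale.Agent.P146.H347 Vale.Agent.P146.H347.U Vale.Agent.P146.H161
  Vale.Agent.P146.H281.U Vale.Agent.P146.H463 Vale.Agent.P146.H615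

set_option linter.unusedSectionVars false

/-! ### kernels -/

section ker

variable {Ω : Type} [MeasurableSpace Ω] {ρ : Measure Ω} [IsProbabilityMeasure ρ] {J : Type*}

/-- the second moment of the overlap of a family -/
lemma ker2 (A : Finset J) {f : J → Ω → ℝ} (hf : ∀ j, H980.Bq (f j)) :
    ∫ p, (∑ j ∈ A, f j p.1 * f j p.2) ^ 2 ∂(ρ.prod ρ) =
      ∑ i ∈ A, ∑ j ∈ A, (∫ ω, f i ω * f j ω ∂ρ) ^ 2 := by
  have h1 : ∀ p : Ω × Ω, (∑ j ∈ A, f j p.1 * f j p.2) ^ 2 =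
      ∑ i ∈ A, ∑ j ∈ A, (f i p.1 * f j p.1) * (f i p.2 * f j p.2) := by
    intro p
    rw [sq, Finset.sum_mul_sum]
    exact Finset.sum_congr rfl fun i _ => Finset.sum_congr rfl fun j _ => by ring
  have hB : ∀ i j, H980.Bq fun ω => f i ω * f j ω := fun i j => (hf i).mul (hf j)
  have hB2 : ∀ i j, H980.Bq fun p : Ω × Ω => (f i p.1 * f j p.1) * (f i p.2 * f j p.2) :=
    fun i j => ((hB i j).comp measurable_fst).mul ((hB i j).comp measurable_snd)
  simp only [h1]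
  rw [integral_finsetSum _ fun i _ => (H980.Bq.sum A fun j _ => hB2 i j).integrable]
  refine Finset.sum_congr rfl fun i _ => ?_
  rw [integral_finsetSum _ fun j _ => (hB2 i j).integrable]
  refine Finset.sum_congr rfl fun j _ => ?_
  rw [integral_prod_mul (f := fun ω => f i ω * f j ω) (g := fun ω => f i ω * f j ω), sq]

/-- the fourth power of an overlap is the square of the overlap of the pairs -/
lemma ker_pairs (S : Finset J) (f : J → Ω → ℝ) (p : Ω × Ω) :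
    (∑ j ∈ S, f j p.1 * f j p.2) ^ 4 =
      (∑ q ∈ S ×ˢ S, (f q.1 p.1 * f q.2 p.1) * (f q.1 p.2 * f q.2 p.2)) ^ 2 := by
  have : ∑ q ∈ S ×ˢ S, (f q.1 p.1 * f q.2 p.1) * (f q.1 p.2 * f q.2 p.2) =
      (∑ j ∈ S, f j p.1 * f j p.2) ^ 2 := by
    rw [Finset.sum_product, sq, Finset.sum_mul_sum]
    exact Finset.sum_congr rfl fun i _ => Finset.sum_congr rfl fun j _ => by ring
  rw [this]
  ring

end ker

lemma sq2_le (s r w W : ℝ) (hs : s ^ 2 = 1) (hw : |w| ≤ W) :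
    |s * (r + w)| ^ 2 ≤ 2 * r ^ 2 + 2 * W ^ 2 := by
  have h1 : w ^ 2 ≤ W ^ 2 := by
    rw [← sq_abs w]
    exact pow_le_pow_left₀ (abs_nonneg _) hw 2
  rw [sq_abs, mul_pow, hs, one_mul]
  nlinarith [sq_nonneg (r - w)]

lemma four_le (s r w W : ℝ) (hs : s ^ 2 = 1) (hw : |w| ≤ W) :
    |s * (r + w)| ^ 4 ≤ 8 * r ^ 4 + 8 * W ^ 4 := by
  have h1 : w ^ 2 ≤ W ^ 2 := by
    rw [← sq_abs w]
    exact pow_le_pow_left₀ (abs_nonneg _) hw 2
  have h2 : |s * (r + w)| ^ 4 = ((r + w) ^ 2) ^ 2 := by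
    have : |s * (r + w)| ^ 4 = (|s * (r + w)| ^ 2) ^ 2 := by ring
    rw [this, sq_abs, mul_pow, hs, one_mul]
  rw [h2]
  have h3 : (r + w) ^ 2 ≤ 2 * r ^ 2 + 2 * W ^ 2 := by nlinarith [sq_nonneg (r - w)]
  have h4 : ((r + w) ^ 2) ^ 2 ≤ (2 * r ^ 2 + 2 * W ^ 2) ^ 2 :=
    pow_le_pow_left₀ (sq_nonneg _) h3 2
  nlinarith [sq_nonneg (r ^ 2 - W ^ 2)]

section gen

variable {ι : Type} [Fintype ι] [DecidableEq ι] {Ω : Type} [MeasurableSpace Ω]
  {μ : Measure Ω} {E : ι → Ω → ℝ} {M0 : ℝ} {J : Type}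

lemma bq_of {f : Ω → ℝ} (hf : Bm f) : H980.Bq f := by
  obtain ⟨m, C, _, hC⟩ := hf
  exact ⟨m, C, hC⟩

/-- the second moment of the overlap under the one replica law -/
lemma int_F2 (hG : GM μ E M0) (x : ℝ) (K : Finset ι) (z : ι → ℝ) (A : Finset J)
    {f : J → Ω → ℝ} (hf : ∀ j, Bm (f j)) :
    ∫ p, (∑ j ∈ A, f j p.1 * f j p.2) ^ 2
      ∂((H980.r1l μ 1 x E K z).prod (H980.r1l μ 1 x E K z)) = F2 μ E x K f A z := by
  have i1 := H980.r1l_prob hG 1 x K z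
  rw [ker2 A fun j => bq_of (hf j)]
  unfold F2
  refine Finset.sum_congr rfl fun i _ => Finset.sum_congr rfl fun j _ => ?_
  rw [H980.int_r1l hG 1 x K z ((hf i).mul (hf j))]

/-- the fourth moment of the overlap under the one replica law -/
lemma int_Q4 (hG : GM μ E M0) (x : ℝ) (K : Finset ι) (z : ι → ℝ) (S : Finset J)
    {f : J → Ω → ℝ} (hf : ∀ j, Bm (f j)) :
    ∫ p, (∑ j ∈ S, f j p.1 * f j p.2) ^ 4
      ∂((H980.r1l μ 1 x E K z).prod (H980.r1l μ 1 x E K z)) = Q4g μ E x K f S z := by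
  unfold Q4g
  rw [← int_F2 hG x K z (S ×ˢ S) fun p => (hf p.1).mul (hf p.2)]
  simp only [ker_pairs]

end gen

/-- the mean of a combination -/
lemma ex_comb {κ : Type} [Fintype κ] [DecidableEq κ] {μ : κ → Measure ℝ}
    [∀ e, IsProbabilityMeasure (μ e)] {w : (κ → ℝ) → ℝ} (hw : Wt μ w) {A F Q : (κ → ℝ) → ℝ}
    (bA : BM A) (bF : BM F) (bQ : BM Q) {a c1 C d p c2 e q c3 : ℝ} :
    ex μ w (fun z => 6 * (a * A z + c1) + C * (d * (p * F z + c2) + e * (q * Q z + c3))) =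
      6 * (a * ex μ w A + c1) + C * (d * (p * ex μ w F + c2) + e * (q * ex μ w Q + c3)) := by
  have e0 : (fun z => 6 * (a * A z + c1) + C * (d * (p * F z + c2) + e * (q * Q z + c3))) =
      fun z => 6 * a * A z + (C * d * p * F z + (C * e * q * Q z +
        (6 * c1 + C * (d * c2 + e * c3)))) := by
    funext z
    ring
  rw [e0, ex_add hw (bcm _ bA) ((bcm _ bF).add ((bcm _ bQ).add (BM.const _))),
    ex_add hw (bcm _ bF) ((bcm _ bQ).add (BM.const _)), ex_add hw (bcm _ bQ) (BM.const _),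
    hw.ex_const_mul, hw.ex_const_mul, hw.ex_const_mul, ex_const hw]
  ring

section row

variable {Θ : Type} [MeasurableSpace Θ] {n : ℕ} {LB LF : Type} [Fintype LB] [DecidableEq LB]
  [Fintype LF] [DecidableEq LF] {ν : Measure Θ} (hν : IsFiniteMeasure ν) (h0 : ν ≠ 0)
  (b : ℝ) (cB : LB → ℝ) (cF : LF → ℝ) {a : LF → Θ → ℝ} {η : ℝ} (hA : AmU a η)
  {i0 : Fin n} {S : Finset (Fin n)} (BL : Finset LB) (FL : Finset LF)

/-- the kernel of the row -/
lemma gk_row (a : LF → Θ → ℝ) (hi : i0 ∉ S) (p : (Θ × Xs n) × (Θ × Xs n)) :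
    H980.Gk (H980.Sr (Rw i0 S BL FL) 1 (SU b cB cF a)) p =
      (sp p.1.2 i0 * sp p.2.2 i0) * (b ^ 2 / n * (∑ l ∈ BL, cB l ^ 2) *
        (∑ j ∈ S, sp p.1.2 j * sp p.2.2 j) +
        ∑ l ∈ FL, cF l ^ 2 * (a l p.1.1 * a l p.2.1)) := by
  have e0 : H980.Gk (H980.Sr (Rw i0 S BL FL) 1 (SU b cB cF a)) p =
      ∑ e ∈ Rw i0 S BL FL, SU b cB cF a e p.1 * SU b cB cF a e p.2 := by
    unfold H980.Gk
    rw [← Finset.sum_subset (Finset.subset_univ (Rw i0 S BL FL))]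
    · refine Finset.sum_congr rfl fun e he => ?_
      unfold H980.Sr
      rw [if_pos he, if_pos he, one_mul, one_mul]
    · intro e _ he
      unfold H980.Sr
      rw [if_neg he, zero_mul]
  rw [e0, sum_Rw' hi _ (fun j l => (sp p.1.2 i0 * sp p.2.2 i0) *
    (b ^ 2 / n * cB l ^ 2 * (sp p.1.2 j * sp p.2.2 j)))]
  · rw [mul_add]
    congr 1
    · rw [Finset.mul_sum, Finset.mul_sum]
      refine Finset.sum_congr rfl fun j _ => ?_
      rw [Finset.mul_sum, Finset.sum_mul, Finset.mul_sum]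
    · rw [Finset.mul_sum]
      refine Finset.sum_congr rfl fun l _ => ?_
      rw [SU_fd, SU_fd]
      ring
  · intro q hq _ l _
    rw [H585.U.SU_row b cB cF a hq, H585.U.SU_row b cB cF a hq, ← div_sqrt_sq]
    ring

include hA in
/-- the field part of the kernel -/
lemma fpart_le (ω ω' : Θ) :
    |∑ l ∈ FL, cF l ^ 2 * (a l ω * a l ω')| ≤ (1 + η) ^ 2 * ∑ l ∈ FL, cF l ^ 2 := by
  refine (Finset.abs_sum_le_sum_abs _ _).trans ?_
  rw [Finset.mul_sum]
  refine Finset.sum_le_sum fun l _ => ?_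
  rw [abs_mul, abs_mul, abs_of_nonneg (sq_nonneg (cF l)), mul_comm ((1 + η) ^ 2)]
  refine mul_le_mul_of_nonneg_left ?_ (sq_nonneg _)
  rw [sq]
  have := hA.nn
  exact mul_le_mul (hA.abs l ω) (hA.abs l ω') (abs_nonneg _) (by linarith)

include hν h0 hA

lemma q2_leU (x : ℝ) (hi : i0 ∉ S) (K : Finset (Co n LB LF)) (z : Co n LB LF → ℝ) :
    H980.q2 (muU ν n) 1 x (SU b cB cF a) K (Rw i0 S BL FL) z ≤
      2 * (b ^ 2 / n * ∑ l ∈ BL, cB l ^ 2) ^ 2 *
        F2 (muU ν n) (SU b cB cF a) x K (fun (j : Fin n) (ω : Θ × Xs n) => sp ω.2 j) S z +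
      2 * ((1 + η) ^ 2 * ∑ l ∈ FL, cF l ^ 2) ^ 2 := by
  have hG := gmU (n := n) b cB cF η hν h0 hA
  have i1 := H980.r1l_prob hG 1 x K z
  have hsp : ∀ j : Fin n, Bm fun ω : Θ × Xs n => sp ω.2 j := fun j => bm_spU j
  rw [← H980.ro2_eq hG 1 x (Rw i0 S BL FL) K z, ← int_F2 hG x K z S hsp]
  unfold H980.ro H980.rk
  set ρ := H980.r1l (muU ν n) 1 x (SU b cB cF a) K z with hρ
  have bR : H980.Bq fun p : (Θ × Xs n) × (Θ × Xs n) =>
      (∑ j ∈ S, sp p.1.2 j * sp p.2.2 j) ^ 2 :=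
    (H980.Bq.sum S fun j _ => ((bq_of (hsp j)).comp measurable_fst).mul
      ((bq_of (hsp j)).comp measurable_snd)).pow 2
  have h1 := integral_mono (μ := ρ.prod ρ)
    ((H980.bq_G hG 1 (Rw i0 S BL FL) 2).integrable)
    (((H980.Bq.const (2 * (b ^ 2 / n * ∑ l ∈ BL, cB l ^ 2) ^ 2)).mul bR).add
      (H980.Bq.const (2 * ((1 + η) ^ 2 * ∑ l ∈ FL, cF l ^ 2) ^ 2))).integrable
    (fun p => by
      show |H980.Gk (H980.Sr (Rw i0 S BL FL) 1 (SU b cB cF a)) p| ^ 2 ≤ _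
      rw [gk_row b cB cF BL FL a hi p]
      refine (sq2_le _ _ _ _ ?_ (fpart_le cF hA FL p.1.1 p.2.1)).trans (le_of_eq ?_)
      · rw [mul_pow, sq, sq, sp_mul_self, sp_mul_self, one_mul]
      · ring)
  refine h1.trans (le_of_eq ?_)
  rw [integral_add ((H980.Bq.const _).mul bR).integrable (H980.Bq.const _).integrable,
    integral_const_mul, integral_const]
  simp

lemma q4_leU (x : ℝ) (hi : i0 ∉ S) (K : Finset (Co n LB LF)) (z : Co n LB LF → ℝ) :
    H980.q4 (muU ν n) 1 x (SU b cB cF a) K (Rw i0 S BL FL) z ≤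
      8 * (b ^ 2 / n * ∑ l ∈ BL, cB l ^ 2) ^ 4 *
        Q4g (muU ν n) (SU b cB cF a) x K (fun (j : Fin n) (ω : Θ × Xs n) => sp ω.2 j) S z +
      8 * ((1 + η) ^ 2 * ∑ l ∈ FL, cF l ^ 2) ^ 4 := by
  have hG := gmU (n := n) b cB cF η hν h0 hA
  have i1 := H980.r1l_prob hG 1 x K z
  have hsp : ∀ j : Fin n, Bm fun ω : Θ × Xs n => sp ω.2 j := fun j => bm_spU j
  rw [← H980.ro4_eq hG 1 x (Rw i0 S BL FL) K z, ← int_Q4 hG x K z S hsp]
  unfold H980.ro H980.rk
  set ρ := H980.r1l (muU ν n) 1 x (SU b cB cF a) K z with hρ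
  have bR : H980.Bq fun p : (Θ × Xs n) × (Θ × Xs n) =>
      (∑ j ∈ S, sp p.1.2 j * sp p.2.2 j) ^ 4 :=
    (H980.Bq.sum S fun j _ => ((bq_of (hsp j)).comp measurable_fst).mul
      ((bq_of (hsp j)).comp measurable_snd)).pow 4
  have h1 := integral_mono (μ := ρ.prod ρ)
    ((H980.bq_G hG 1 (Rw i0 S BL FL) 4).integrable)
    (((H980.Bq.const (8 * (b ^ 2 / n * ∑ l ∈ BL, cB l ^ 2) ^ 4)).mul bR).add
      (H980.Bq.const (8 * ((1 + η) ^ 2 * ∑ l ∈ FL, cF l ^ 2) ^ 4))).integrable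
    (fun p => by
      show |H980.Gk (H980.Sr (Rw i0 S BL FL) 1 (SU b cB cF a)) p| ^ 4 ≤ _
      rw [gk_row b cB cF BL FL a hi p]
      refine (four_le _ _ _ _ ?_ (fpart_le cF hA FL p.1.1 p.2.1)).trans (le_of_eq ?_)
      · rw [mul_pow, sq, sq, sp_mul_self, sp_mul_self, one_mul]
      · ring)
  refine h1.trans (le_of_eq ?_)
  rw [integral_add ((H980.Bq.const _).mul bR).integrable (H980.Bq.const _).integrable,
    integral_const_mul, integral_const]
  simp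

/-- **The last square in the ensemble `U`, pointwise in the frozen coordinates.** -/
theorem c3z_U {x : ℝ} (hx0 : 0 ≤ x) (hx1 : x ≤ 1) (hi : i0 ∉ S) {r : Θ → ℝ}
    (hr : Measurable r) (hrb : ∀ θ, |r θ| ≤ 1 + η)
    (hL : x ^ 2 * (b ^ 2 * (∑ l ∈ BL, cB l ^ 2) + (1 + η) ^ 2 * ∑ l ∈ FL, cF l ^ 2) ≤ 1 / 4)
    (u : Co n LB LF → ℝ) {δ : ℝ} (hδ : 0 < δ) (z : Co n LB LF → ℝ) :
    cxU n ν b cB cF a x (Kset S BL FL) (fun y =>
      (cxU n ν b cB cF a x (Kset (insert i0 S) BL FL)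
        (avU n ν b cB cF a (fun ω => r ω.1 * sp ω.2 i0)) y - lc (Rw i0 S BL FL) u y) ^ 2) z ≤
      6 * ∑ e ∈ Rw i0 S BL FL, (cxU n ν b cB cF a x (Kset S BL FL) (fun y =>
        cxU n ν b cB cF a x (Kset (insert i0 S) BL FL)
          (avU n ν b cB cF a (fun ω => r ω.1 * sp ω.2 i0)) y * y e) z - u e) ^ 2 +
      6000000 * (1 + η) ^ 2 * (δ * (2 * (b ^ 2 / n * ∑ l ∈ BL, cB l ^ 2) ^ 2 *
          cxU n ν b cB cF a x (Kset S BL FL) (F2 (muU ν n) (SU b cB cF a) x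
            (Kset (insert i0 S) BL FL) (fun (j : Fin n) (ω : Θ × Xs n) => sp ω.2 j) S) z +
          2 * ((1 + η) ^ 2 * ∑ l ∈ FL, cF l ^ 2) ^ 2) +
        (8 * (b ^ 2 / n * ∑ l ∈ BL, cB l ^ 2) ^ 4 *
          cxU n ν b cB cF a x (Kset S BL FL) (Q4g (muU ν n) (SU b cB cF a) x
            (Kset (insert i0 S) BL FL) (fun (j : Fin n) (ω : Θ × Xs n) => sp ω.2 j) S) z +
          8 * ((1 + η) ^ 2 * ∑ l ∈ FL, cF l ^ 2) ^ 4) / δ) := by
  have hη := hA.nn
  have hG := gmU (n := n) b cB cF η hν h0 hA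
  have hw := hG.wt 1 x
  have hn : 0 < n := lt_of_le_of_lt (Nat.zero_le _) i0.2
  have hU : Kset S BL FL ∪ Rw i0 S BL FL = Kset (LB := LB) (LF := LF) (insert i0 S) BL FL :=
    Rw_union hi
  have hP : ∀ w : Θ × Xs n, |r w.1 * sp w.2 i0| ≤ 1 + η := by
    intro w
    rw [abs_mul, abs_one_sp, mul_one]
    exact hrb w.1
  have hmP : Measurable fun w : Θ × Xs n => r w.1 * sp w.2 i0 :=
    (hr.comp measurable_fst).mul (measurable_spU i0)
  have hεR : ∀ e ∈ Rw i0 S BL FL, eps LB LF (fl i0) e = -1 := by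
    intro e he
    rcases e with (⟨p, l⟩ | ⟨i, l⟩) | j
    · have h1 := (bd_memR p l).1 he
      exact SkS_fl_row h1.1.1
    · have h1 := (fd_memR i l).1 he
      show sp (fl i0) i = -1
      rw [h1.1]
      exact sp_fl_self i0
    · exact absurd he (gd_memR j)
  have hεK : ∀ e ∈ Kset (LB := LB) (LF := LF) S BL FL, eps LB LF (fl i0) e = 1 := by
    intro e he
    refine eps_eq_oneK (fl i0) (fun i hi' => ?_) he
    unfold fl
    rw [if_neg]
    rintro rfl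
    exact hi hi'
  have hPT : ∀ w : Θ × Xs n, (fun w : Θ × Xs n => r w.1 * sp w.2 i0)
      (w.1, fun i => w.2 i * fl i0 i) = -(r w.1 * sp w.2 i0) := by
    intro w
    show r w.1 * sp (fun i => w.2 i * fl i0 i) i0 = _
    rw [sp_mul, sp_fl_self]
    ring
  have hLs : ∀ w : Θ × Xs n, (x * 1) ^ 2 * ∑ e ∈ Rw i0 S BL FL, SU b cB cF a e w ^ 2 ≤
      1 / 4 := by
    intro w
    rw [mul_one]
    exact (mul_le_mul_of_nonneg_left (sum_Rw_SUsq_le b cB cF hA hi BL FL w)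
      (sq_nonneg x)).trans hL
  have key := H980.c3_cx hG 1 hx0 hx1 (Rw_disj hi) hmP hP (symGU b cB cF a hν (fl i0))
    hεK hεR hPT hLs u hδ z
  rw [hU] at key
  have hswap : ∀ e : Co n LB LF, (fun y : Co n LB LF → ℝ => y e *
      cx (H487.gs (Co n LB LF)) (Kset (insert i0 S) BL FL)
        (Zxm (muU ν n) 1 (SU b cB cF a) x)
        (avm (muU ν n) 1 (SU b cB cF a) fun w => r w.1 * sp w.2 i0) y) =
      fun y => cxU n ν b cB cF a x (Kset (insert i0 S) BL FL)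
          (avU n ν b cB cF a (fun w => r w.1 * sp w.2 i0)) y * y e := by
    intro e
    funext y
    exact mul_comm _ _
  simp only [hswap] at key
  have hsp : ∀ j : Fin n, Bm fun ω : Θ × Xs n => sp ω.2 j := fun j => bm_spU j
  set F := F2 (muU ν n) (SU b cB cF a) x
    (Kset (insert i0 S) BL FL) (fun (j : Fin n) (ω : Θ × Xs n) => sp ω.2 j) S with hF
  set Q := Q4g (muU ν n) (SU b cB cF a) x
    (Kset (insert i0 S) BL FL) (fun (j : Fin n) (ω : Θ × Xs n) => sp ω.2 j) S with hQ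
  have bF : BM F := by
    have h1 : BM fun z => F2 (muU ν n) (SU b cB cF a) x (Kset (insert i0 S) BL FL)
        (fun (j : Fin n) (ω : Θ × Xs n) => sp ω.2 j) S z := by
      unfold F2
      exact BM.sum S fun i _ => BM.sum S fun j _ =>
        bsq (hw.bm_cx _ (H347.bm hG 1 ((hsp i).mul (hsp j))))
    exact h1
  have bQ : BM Q := by
    have h1 : BM fun z => Q4g (muU ν n) (SU b cB cF a) x (Kset (insert i0 S) BL FL)
        (fun (j : Fin n) (ω : Θ × Xs n) => sp ω.2 j) S z := by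
      unfold Q4g F2
      exact BM.sum _ fun i _ => BM.sum _ fun j _ =>
        bsq (hw.bm_cx _ (H347.bm hG 1 (((hsp i.1).mul (hsp i.2)).mul
          ((hsp j.1).mul (hsp j.2)))))
    exact h1
  have h2 := cx_mono hw (K := Kset S BL FL) (H980.bm_q2 hG 1 x (Rw i0 S BL FL)
      (Kset (insert i0 S) BL FL)) ((bcm (2 * (b ^ 2 / n * ∑ l ∈ BL, cB l ^ 2) ^ 2) bF).add
        (BM.const (2 * ((1 + η) ^ 2 * ∑ l ∈ FL, cF l ^ 2) ^ 2)))
      (fun y => q2_leU hν h0 b cB cF hA BL FL x hi (Kset (insert i0 S) BL FL) y) z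
  rw [cx_add hw (bcm _ bF) (BM.const _), cx_const_mul hw,
    cx_dep hw (Q := fun _ => 2 * ((1 + η) ^ 2 * ∑ l ∈ FL, cF l ^ 2) ^ 2)
      (fun _ _ => rfl)] at h2
  have h4 := cx_mono hw (K := Kset S BL FL) (H980.bm_q4 hG 1 x (Rw i0 S BL FL)
      (Kset (insert i0 S) BL FL)) ((bcm (8 * (b ^ 2 / n * ∑ l ∈ BL, cB l ^ 2) ^ 4) bQ).add
        (BM.const (8 * ((1 + η) ^ 2 * ∑ l ∈ FL, cF l ^ 2) ^ 4)))
      (fun y => q4_leU hν h0 b cB cF hA BL FL x hi (Kset (insert i0 S) BL FL) y) z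
  rw [cx_add hw (bcm _ bQ) (BM.const _), cx_const_mul hw,
    cx_dep hw (Q := fun _ => 8 * ((1 + η) ^ 2 * ∑ l ∈ FL, cF l ^ 2) ^ 4)
      (fun _ _ => rfl)] at h4
  refine key.trans (add_le_add le_rfl ?_)
  refine mul_le_mul_of_nonneg_left ?_ (by positivity)
  exact add_le_add (mul_le_mul_of_nonneg_left h2 hδ.le) (div_le_div_of_nonneg_right h4 hδ.le)

/-- the own thermal factor is bounded and measurable -/
lemma bm_ThU (x : ℝ) {r : Θ → ℝ} (hr : Measurable r) (hrb : ∀ θ, |r θ| ≤ 1 + η) (i0 j : Fin n) :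
    BM (H615.Th (avU n ν b cB cF a) x (fun ω => r ω.1) (fun ω => sp ω.2 i0)
      (fun j ω => sp ω.2 j) j) := by
  have hη := hA.nn
  have hG := gmU (n := n) b cB cF η hν h0 hA
  have hrm : Bm fun ω : Θ × Xs n => r ω.1 :=
    Bm.of (hr.comp measurable_fst) (C := 1 + η) fun w => hrb w.1
  have hsp : ∀ j : Fin n, Bm fun ω : Θ × Xs n => sp ω.2 j := fun j => bm_spU j
  have h1 : BM fun z => avU n ν b cB cF a (fun ω => r ω.1 * sp ω.2 j) z -
      (1 - x) * (avU n ν b cB cF a (fun ω => r ω.1 * sp ω.2 i0) z *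
        avU n ν b cB cF a (fun ω => sp ω.2 i0 * sp ω.2 j) z) :=
    (H347.bm hG 1 (hrm.mul (hsp j))).sub ((BM.const _).mul
      ((H347.bm hG 1 (hrm.mul (hsp i0))).mul (H347.bm hG 1 ((hsp i0).mul (hsp j)))))
  exact h1

/-- **The vector of the row in the ensemble `U`.** -/
theorem dvec_U {x : ℝ} (hx0 : 0 ≤ x) (hx1 : x ≤ 1) (hη1 : η ≤ 1 / 2) (hi : i0 ∉ S) {r : Θ → ℝ}
    (hr : Measurable r) (hrb : ∀ θ, |r θ| ≤ 1 + η) {cP : LF → ℝ}
    (hcP : ∀ l ∈ FL, |cP l| ≤ |cF l|) {kp : ℝ} (hkp : |kp| ≤ 3)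
    (M : Fin n → (Co n LB LF → ℝ) → ℝ) (z : Co n LB LF → ℝ) :
    ∑ e ∈ Rw i0 S BL FL, (cxU n ν b cB cF a x (Kset S BL FL) (fun y =>
        cxU n ν b cB cF a x (Kset (insert i0 S) BL FL)
          (avU n ν b cB cF a (fun ω => r ω.1 * sp ω.2 i0)) y * y e) z -
        cfr i0 b cB cP kp M z e) ^ 2 ≤
      b ^ 2 / n * (∑ l ∈ BL, cB l ^ 2) * ∑ j ∈ S, (cxU n ν b cB cF a x (Kset S BL FL)
        (H615.Th (avU n ν b cB cF a) x (fun ω => r ω.1) (fun ω => sp ω.2 i0)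
          (fun j ω => sp ω.2 j) j) z - kp * M j z) ^ 2 +
      40 * ((1 + η) ^ 2 * ∑ l ∈ FL, cF l ^ 2) := by
  have hη := hA.nn
  have hG := gmU (n := n) b cB cF η hν h0 hA
  have hw := hG.wt 1 x
  set K := Kset (LB := LB) (LF := LF) S BL FL with hK
  set K' := Kset (LB := LB) (LF := LF) (insert i0 S) BL FL with hK'
  set h : Θ × Xs n → ℝ := fun w => r w.1 * sp w.2 i0 with hh
  have hR : Rw i0 S BL FL ⊆ K' := by
    rw [hK', ← Rw_union hi]
    exact Finset.subset_union_right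
  have hKK : K ⊆ K' := Kset_mono (Finset.subset_insert i0 S) (Finset.Subset.refl _)
    (Finset.Subset.refl _)
  have hd : Disjoint K (Rw i0 S BL FL) := Rw_disj hi
  have hhb : ∀ w, |h w| ≤ 1 + η := by
    intro w
    show |r w.1 * sp w.2 i0| ≤ 1 + η
    rw [abs_mul, abs_one_sp, mul_one]
    exact hrb w.1
  have hhm : Measurable h := (hr.comp measurable_fst).mul (measurable_spU i0)
  have bh : Bm h := Bm.of hhm hhb
  -- one coordinate
  have key : ∀ e ∈ Rw i0 S BL FL, cxU n ν b cB cF a x K (fun y =>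
      cxU n ν b cB cF a x K' (avU n ν b cB cF a h) y * y e) z =
      cxU n ν b cB cF a x K (rsg (muU ν n) 1 (SU b cB cF a) x h (SU b cB cF a e)) z := by
    intro e he
    have hsub : ({e} : Finset (Co n LB LF)) ⊆ Rw i0 S BL FL := Finset.singleton_subset_iff.2 he
    have h1 := cx_N_lin hG 1 x (R := {e}) (Finset.disjoint_of_subset_right hsub hd) hKK
      (hsub.trans hR) bh (fun _ => 1) z
    have e1 : lc {e} (fun _ => (1 : ℝ)) = fun y : Co n LB LF → ℝ => y e := by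
      funext y; unfold lc; simp
    have e2 : YS {e} (fun _ => (1 : ℝ)) (SU b cB cF a) = (SU b cB cF a e : Θ × Xs n → ℝ) := by
      funext w; unfold YS; simp
    rw [e1, e2, one_mul] at h1
    exact h1
  rw [sum_Rw' hi _ (fun j l => b ^ 2 / n * cB l ^ 2 * (cxU n ν b cB cF a x K
        (H615.Th (avU n ν b cB cF a) x (fun ω => r ω.1) (fun ω => sp ω.2 i0)
          (fun j ω => sp ω.2 j) j) z - kp * M j z) ^ 2)]
  · refine add_le_add (le_of_eq ?_) ?_
    · rw [Finset.mul_sum]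
      refine Finset.sum_congr rfl fun j _ => ?_
      rw [Finset.mul_sum, Finset.sum_mul]
    · rw [← mul_assoc, Finset.mul_sum]
      refine Finset.sum_le_sum fun l hl => ?_
      have hmem : fd LB i0 l ∈ Rw i0 S BL FL := (fd_memR i0 l).2 ⟨rfl, hl⟩
      rw [key _ hmem, cfr_fd]
      have hE : ∀ w : Θ × Xs n, |SU b cB cF a (fd LB i0 l) w| ≤ |cF l| * (1 + η) := by
        intro w
        rw [SU_fd, abs_mul, abs_mul, abs_one_sp, mul_one]
        exact mul_le_mul_of_nonneg_left (hA.abs l w.1) (abs_nonneg _)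
      have hEm : Measurable (SU b cB cF a (fd LB i0 l) : Θ × Xs n → ℝ) := hG.meas _
      have bE : Bm (SU b cB cF a (fd LB i0 l) : Θ × Xs n → ℝ) := Bm.of hEm hE
      have bRs : BM (rsg (muU ν n) 1 (SU b cB cF a) x h (SU b cB cF a (fd LB i0 l))) := by
        have h1 : BM fun y => avm (muU ν n) 1 (SU b cB cF a)
            (fun ω => h ω * SU b cB cF a (fd LB i0 l) ω) y -
            (1 - x) * (avm (muU ν n) 1 (SU b cB cF a) h y *
              avm (muU ν n) 1 (SU b cB cF a) (SU b cB cF a (fd LB i0 l)) y) :=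
          (H347.bm hG 1 (bh.mul bE)).sub ((BM.const _).mul
            ((H347.bm hG 1 bh).mul (H347.bm hG 1 bE)))
        exact h1
      have hRs : ∀ y, |rsg (muU ν n) 1 (SU b cB cF a) x h (SU b cB cF a (fd LB i0 l)) y| ≤
          2 * ((1 + η) ^ 2 * |cF l|) := by
        intro y
        unfold rsg
        have a1 : |avm (muU ν n) 1 (SU b cB cF a)
            (fun ω => h ω * SU b cB cF a (fd LB i0 l) ω) y| ≤ (1 + η) * (|cF l| * (1 + η)) :=
          hG.abs_av_le 1 (hhm.mul hEm) (fun w => by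
            show |h w * SU b cB cF a (fd LB i0 l) w| ≤ _
            rw [abs_mul]
            exact mul_le_mul (hhb w) (hE w) (abs_nonneg _) (by linarith)) y
        have a2 := hG.abs_av_le 1 hhm hhb y
        have a3 := hG.abs_av_le 1 hEm hE y
        have a4 : |avm (muU ν n) 1 (SU b cB cF a) h y *
            avm (muU ν n) 1 (SU b cB cF a) (SU b cB cF a (fd LB i0 l)) y| ≤
            (1 + η) * (|cF l| * (1 + η)) := by
          rw [abs_mul]
          exact mul_le_mul a2 a3 (abs_nonneg _) (by linarith)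
        have a5 : |(1 - x) * (avm (muU ν n) 1 (SU b cB cF a) h y *
            avm (muU ν n) 1 (SU b cB cF a) (SU b cB cF a (fd LB i0 l)) y)| ≤
            (1 + η) * (|cF l| * (1 + η)) := by
          rw [abs_mul, abs_of_nonneg (by linarith : (0 : ℝ) ≤ 1 - x)]
          calc (1 - x) * |avm (muU ν n) 1 (SU b cB cF a) h y *
              avm (muU ν n) 1 (SU b cB cF a) (SU b cB cF a (fd LB i0 l)) y|
              ≤ 1 * |avm (muU ν n) 1 (SU b cB cF a) h y *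
              avm (muU ν n) 1 (SU b cB cF a) (SU b cB cF a (fd LB i0 l)) y| :=
                mul_le_mul_of_nonneg_right (by linarith) (abs_nonneg _)
            _ ≤ _ := by rw [one_mul]; exact a4
        refine (abs_sub _ _).trans ((add_le_add a1 a5).trans (le_of_eq ?_))
        ring
      have hc := hw.abs_cx_le K bRs hRs z
      have hcp := hcP l hl
      have h5 : |cxU n ν b cB cF a x K (rsg (muU ν n) 1 (SU b cB cF a) x h
          (SU b cB cF a (fd LB i0 l))) z - kp * cP l| ≤ 6 * ((1 + η) * |cF l|) := by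
        refine (abs_sub _ _).trans ?_
        rw [abs_mul]
        have h6 : |kp| * |cP l| ≤ 3 * |cF l| :=
          mul_le_mul hkp hcp (abs_nonneg _) (by norm_num)
        have h7 : 2 * ((1 + η) ^ 2 * |cF l|) ≤ 3 * ((1 + η) * |cF l|) := by
          have h8 : (1 + η) ^ 2 * 2 ≤ (1 + η) * 3 := by nlinarith
          nlinarith [abs_nonneg (cF l)]
        have h9 : 3 * |cF l| ≤ 3 * ((1 + η) * |cF l|) := by
          nlinarith [abs_nonneg (cF l), mul_nonneg hη (abs_nonneg (cF l))]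
        calc _ ≤ 2 * ((1 + η) ^ 2 * |cF l|) + 3 * |cF l| := add_le_add hc h6
          _ ≤ _ := by linarith
      calc (cxU n ν b cB cF a x K (rsg (muU ν n) 1 (SU b cB cF a) x h
            (SU b cB cF a (fd LB i0 l))) z - kp * cP l) ^ 2
          = |cxU n ν b cB cF a x K (rsg (muU ν n) 1 (SU b cB cF a) x h
            (SU b cB cF a (fd LB i0 l))) z - kp * cP l| ^ 2 := (sq_abs _).symm
        _ ≤ (6 * ((1 + η) * |cF l|)) ^ 2 := pow_le_pow_left₀ (abs_nonneg _) h5 2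
        _ = 36 * (1 + η) ^ 2 * |cF l| ^ 2 := by ring
        _ ≤ 40 * (1 + η) ^ 2 * cF l ^ 2 := by
            rw [sq_abs]
            exact mul_le_mul_of_nonneg_right (by nlinarith [sq_nonneg (1 + η)]) (sq_nonneg _)
  · intro p hp hpS l hl'
    have hmem : bd LF p l ∈ Rw i0 S BL FL := (bd_memR p l).2 ⟨⟨hp, hpS⟩, hl'⟩
    rw [key _ hmem, cfr_bd]
    have e3 : rsg (muU ν n) 1 (SU b cB cF a) x h (SU b cB cF a (bd LF p l)) =
        fun y => (b / √n * cB l) * H615.Th (avU n ν b cB cF a) x (fun ω => r ω.1)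
          (fun w => sp w.2 i0) (fun j w => sp w.2 j) (oth i0 p) y := by
      funext y
      unfold rsg H615.Th
      have f1 : (fun ω => h ω * SU b cB cF a (bd LF p l) ω) =
          fun ω => (b / √n * cB l) * (r ω.1 * sp ω.2 (oth i0 p)) := by
        funext ω
        rw [H585.U.SU_row b cB cF a hp, hh]
        have := sp_mul_self ω.2 i0
        calc r ω.1 * sp ω.2 i0 * (b / √n * cB l * (sp ω.2 i0 * sp ω.2 (oth i0 p)))
            = (b / √n * cB l) * (r ω.1 * sp ω.2 (oth i0 p)) * (sp ω.2 i0 * sp ω.2 i0) := by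
              ring
          _ = _ := by rw [this, mul_one]
      have f2 : (fun ω => SU b cB cF a (bd LF p l) ω) =
          fun ω : Θ × Xs n => (b / √n * cB l) * (sp ω.2 i0 * sp ω.2 (oth i0 p)) := by
        funext ω
        rw [H585.U.SU_row b cB cF a hp]
      rw [f1, show SU b cB cF a (bd LF p l) = fun ω : Θ × Xs n => SU b cB cF a (bd LF p l) ω
        from rfl, f2, H196.av_mul, H196.av_mul]
      show _ = b / √n * cB l * (avm _ _ _ _ _ - (1 - x) * (avm _ _ _ _ _ * avm _ _ _ _ _))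
      ring
    rw [e3]
    have e4 : cxU n ν b cB cF a x K (fun y => (b / √n * cB l) *
        H615.Th (avU n ν b cB cF a) x (fun ω => r ω.1)
          (fun w => sp w.2 i0) (fun j w => sp w.2 j) (oth i0 p) y) z =
        (b / √n * cB l) * cxU n ν b cB cF a x K (H615.Th (avU n ν b cB cF a) x
          (fun ω => r ω.1) (fun w => sp w.2 i0) (fun j w => sp w.2 j) (oth i0 p)) z :=
      H347.cx_cmul _ _ _ _ _
    rw [e4, ← div_sqrt_sq]
    ring

/-- **The last square in the ensemble `U`.** -/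
theorem c3_U {x : ℝ} (hx0 : 0 ≤ x) (hx1 : x ≤ 1) (hη1 : η ≤ 1 / 2) (hi : i0 ∉ S) {r : Θ → ℝ}
    (hr : Measurable r) (hrb : ∀ θ, |r θ| ≤ 1 + η) {cP : LF → ℝ}
    (hcP : ∀ l ∈ FL, |cP l| ≤ |cF l|) {kp : ℝ} (hkp : |kp| ≤ 3)
    (hL : x ^ 2 * (b ^ 2 * (∑ l ∈ BL, cB l ^ 2) + (1 + η) ^ 2 * ∑ l ∈ FL, cF l ^ 2) ≤ 1 / 4)
    (hP : ∀ l ∈ FL, ∀ θ, cP l * (cF l * a l θ) = cP l ^ 2)
    {M : Fin n → (Co n LB LF → ℝ) → ℝ} (hM : ∀ j, BM (M j))
    (hMd : ∀ j, H646.Dep (Kset S BL FL) (M j)) {δ : ℝ} (hδ : 0 < δ) :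
    exU n ν b cB cF a x (fun z => cxU n ν b cB cF a x (Kset S BL FL) (fun y =>
      (cxU n ν b cB cF a x (Kset (insert i0 S) BL FL)
        (avU n ν b cB cF a (fun ω => r ω.1 * sp ω.2 i0)) y -
        lc (Rw i0 S BL FL) (cfr i0 b cB cP kp M z) y) ^ 2) z) ≤
      6 * (b ^ 2 / n * (∑ l ∈ BL, cB l ^ 2) * (∑ j ∈ S, exU n ν b cB cF a x (fun z =>
        (cxU n ν b cB cF a x (Kset S BL FL)
          (H615.Th (avU n ν b cB cF a) x (fun ω => r ω.1) (fun ω => sp ω.2 i0)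
            (fun j ω => sp ω.2 j) j) z - kp * M j z) ^ 2)) +
        40 * ((1 + η) ^ 2 * ∑ l ∈ FL, cF l ^ 2)) +
      6000000 * (1 + η) ^ 2 * (δ * (2 * (b ^ 2 / n * ∑ l ∈ BL, cB l ^ 2) ^ 2 *
          R2U n ν b cB cF a x (Kset (insert i0 S) BL FL) S +
          2 * ((1 + η) ^ 2 * ∑ l ∈ FL, cF l ^ 2) ^ 2) +
        (8 * (b ^ 2 / n * ∑ l ∈ BL, cB l ^ 2) ^ 4 *
          exU n ν b cB cF a x (Q4g (muU ν n) (SU b cB cF a) x
            (Kset (insert i0 S) BL FL) (fun (j : Fin n) (ω : Θ × Xs n) => sp ω.2 j) S) +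
          8 * ((1 + η) ^ 2 * ∑ l ∈ FL, cF l ^ 2) ^ 4) / δ) := by
  have hη := hA.nn
  have hG := gmU (n := n) b cB cF η hν h0 hA
  have hw := hG.wt 1 x
  have hsp : ∀ j : Fin n, Bm fun ω : Θ × Xs n => sp ω.2 j := fun j => bm_spU j
  have bh : Bm fun ω : Θ × Xs n => r ω.1 * sp ω.2 i0 :=
    (Bm.of (hr.comp measurable_fst) (C := 1 + η) fun w : Θ × Xs n => hrb w.1).mul (hsp i0)
  set K := Kset (LB := LB) (LF := LF) S BL FL with hK
  set K' := Kset (LB := LB) (LF := LF) (insert i0 S) BL FL with hK'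
  set T : Fin n → (Co n LB LF → ℝ) → ℝ := fun j => H615.Th (avU n ν b cB cF a) x
    (fun ω => r ω.1) (fun ω => sp ω.2 i0) (fun j ω => sp ω.2 j) j with hT
  have bT : ∀ j, BM (T j) := fun j => bm_ThU hν h0 b cB cF hA x hr hrb i0 j
  set F := F2 (muU ν n) (SU b cB cF a) x K' (fun (j : Fin n) (ω : Θ × Xs n) => sp ω.2 j) S
    with hF
  set Q := Q4g (muU ν n) (SU b cB cF a) x K' (fun (j : Fin n) (ω : Θ × Xs n) => sp ω.2 j) S
    with hQ
  have bFi : ∀ i j : Fin n, BM fun z => cxU n ν b cB cF a x K'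
      (avU n ν b cB cF a (fun w => sp w.2 i * sp w.2 j)) z ^ 2 := fun i j =>
    bsq (hw.bm_cx _ (H347.bm hG 1 ((hsp i).mul (hsp j))))
  have bF : BM F := by
    have h1 : BM fun z => F2 (muU ν n) (SU b cB cF a) x K'
        (fun (j : Fin n) (ω : Θ × Xs n) => sp ω.2 j) S z := by
      unfold F2
      exact BM.sum S fun i _ => BM.sum S fun j _ => bFi i j
    exact h1
  have bQ : BM Q := by
    have h1 : BM fun z => Q4g (muU ν n) (SU b cB cF a) x K'
        (fun (j : Fin n) (ω : Θ × Xs n) => sp ω.2 j) S z := by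
      unfold Q4g F2
      exact BM.sum _ fun i _ => BM.sum _ fun j _ =>
        bsq (hw.bm_cx _ (H347.bm hG 1 (((hsp i.1).mul (hsp i.2)).mul
          ((hsp j.1).mul (hsp j.2)))))
    exact h1
  set τ := b ^ 2 / n * ∑ l ∈ BL, cB l ^ 2 with hτ
  set wF := (1 + η) ^ 2 * ∑ l ∈ FL, cF l ^ 2 with hwF
  have bD : ∀ j, BM fun z => (cxU n ν b cB cF a x K (T j) z - kp * M j z) ^ 2 := fun j =>
    bsq ((hw.bm_cx _ (bT j)).sub ((BM.const kp).mul (hM j)))
  have bS : BM fun z => ∑ j ∈ S, (cxU n ν b cB cF a x K (T j) z - kp * M j z) ^ 2 :=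
    BM.sum S fun j _ => bD j
  -- the last square as a function of the frozen coordinates
  have bN : BM (cxU n ν b cB cF a x K' (avU n ν b cB cF a (fun ω => r ω.1 * sp ω.2 i0))) :=
    hw.bm_cx _ (H347.bm hG 1 bh)
  have hpt : ∀ z, cxU n ν b cB cF a x K (fun y =>
      (cxU n ν b cB cF a x K' (avU n ν b cB cF a (fun ω => r ω.1 * sp ω.2 i0)) y -
        lc (Rw i0 S BL FL) (cfr i0 b cB cP kp M z) y) ^ 2) z ≤
      (6 * (τ * (∑ j ∈ S, (cxU n ν b cB cF a x K (T j) z - kp * M j z) ^ 2) + 40 * wF)) +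
      6000000 * (1 + η) ^ 2 * (δ * (2 * τ ^ 2 * cxU n ν b cB cF a x K F z + 2 * wF ^ 2) +
        (8 * τ ^ 4 * cxU n ν b cB cF a x K Q z + 8 * wF ^ 4) / δ) := by
    intro z
    refine (c3z_U hν h0 b cB cF hA BL FL hx0 hx1 hi hr hrb hL _ hδ z).trans ?_
    refine add_le_add ?_ le_rfl
    exact mul_le_mul_of_nonneg_left
      (dvec_U hν h0 b cB cF hA BL FL hx0 hx1 hη1 hi hr hrb hcP hkp M z) (by norm_num)
  have hR : Rw i0 S BL FL ⊆ K' := by
    rw [hK', ← Rw_union hi]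
    exact Finset.subset_union_right
  have hKK : K ⊆ K' := Kset_mono (Finset.subset_insert i0 S) (Finset.Subset.refl _)
    (Finset.Subset.refl _)
  have hs1 : ∀ ω : Θ × Xs n, (fun ω : Θ × Xs n => sp ω.2 i0) ω ^ 2 = 1 := fun ω => by
    show sp ω.2 i0 ^ 2 = 1
    rw [sq]
    exact sp_mul_self ω.2 i0
  have bL : BM (fun z => cxU n ν b cB cF a x K (fun y =>
      (cxU n ν b cB cF a x K' (avU n ν b cB cF a (fun ω => r ω.1 * sp ω.2 i0)) y -
        lc (Rw i0 S BL FL) (cfr i0 b cB cP kp M z) y) ^ 2) z) :=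
    H317.bm_last (T := S) (s := fun j (ω : Θ × Xs n) => sp ω.2 j)
      (s0 := fun ω : Θ × Xs n => sp ω.2 i0) (a := fun ω : Θ × Xs n => r ω.1) hG x (Rw_disj hi)
      hKK hR hsp (hsp i0) hs1 (Bm.of (hr.comp measurable_fst) (C := 1 + η) fun w => hrb w.1)
      hM hMd τ (∑ l ∈ FL, cP l ^ 2) kp (cfr i0 b cB cP kp M)
      (fun z ω => H585.U.ys_cfrU b cB cF cP a BL FL hi hP kp M z ω)
      (fun z => sq_cfr b cB cP BL FL hi kp M z)
  have bCF := hw.bm_cx K bF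
  have bCQ := hw.bm_cx K bQ
  have h1 := ex_mono hw bL
    (((bcm 6 ((bcm τ bS).add (BM.const (40 * wF)))).add
      (bcm (6000000 * (1 + η) ^ 2) ((bcm δ ((bcm (2 * τ ^ 2) bCF).add
        (BM.const (2 * wF ^ 2)))).add (bcm δ⁻¹ ((bcm (8 * τ ^ 4) bCQ).add
          (BM.const (8 * wF ^ 4)))))))) (fun z => (hpt z).trans (le_of_eq (by
            rw [div_eq_inv_mul])))
  refine h1.trans (le_of_eq ?_)
  rw [ex_comb hw bS bCF bCQ, ex_cx' hw bF, ex_cx' hw bQ]
  have e1 : ex (g1 _) (Zxm (muU ν n) 1 (SU b cB cF a) x)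
      (fun z => ∑ j ∈ S, (cxU n ν b cB cF a x K (T j) z - kp * M j z) ^ 2) =
      ∑ j ∈ S, exU n ν b cB cF a x (fun z => (cxU n ν b cB cF a x K (T j) z - kp * M j z) ^ 2) :=
    hw.ex_sum S fun j _ => bD j
  have e2 : ex (g1 _) (Zxm (muU ν n) 1 (SU b cB cF a) x) F =
      R2U n ν b cB cF a x K' S := by
    have h2 : ex (g1 _) (Zxm (muU ν n) 1 (SU b cB cF a) x) (fun z => ∑ i ∈ S, ∑ j ∈ S,
        cxU n ν b cB cF a x K' (avU n ν b cB cF a (fun w => sp w.2 i * sp w.2 j)) z ^ 2) =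
        ∑ i ∈ S, ∑ j ∈ S, exU n ν b cB cF a x (fun z =>
          cxU n ν b cB cF a x K' (avU n ν b cB cF a (fun w => sp w.2 i * sp w.2 j)) z ^ 2) := by
      rw [hw.ex_sum S fun i _ => BM.sum S fun j _ => bFi i j]
      exact Finset.sum_congr rfl fun i _ => hw.ex_sum S fun j _ => bFi i j
    exact h2
  rw [e1, e2, div_eq_inv_mul]

end row

end Vale.Agent.P146.H281.C3
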