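import Vale.Agent.P146.H332.Fe
import Vale.Agent.P146.H425.Ut

/-!
Thermal tail in the one exponent law: at a frozen position `y`, the probability that a replica lies
in an event `E` on which a linear form `∑ v_e S_e` is at least `m` is at most
`exp (x (W(2x) - W(x)) - x² b² k² m² / (2V))`, `|v|² ≤ V`.
-/

open MeasureTheory ProbabilityTheory

namespace Vale.Agent.P146.H281

open Vale.Agent.P157.Lv Vale.Agent.P146.H425 Vale.Agent.P146.H325 Vale.Agent.P146.H332

set_option linter.unusedSectionVars false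

variable {ι : Type} [Fintype ι] [DecidableEq ι] {X : Type} [Fintype X] [Nonempty X]
  [DecidableEq X]
variable (k : ℝ) (S : ι → X → ℝ)

/-- the system restricted to the event `E` -/
def rS (E : Finset X) : ι → E → ℝ := fun e s => S e s.1

/-- the indicator -/
def ind (E : Finset X) (s : X) : ℝ := if s ∈ E then 1 else 0

lemma ind_nonneg (E : Finset X) (s : X) : 0 ≤ ind E s := by
  unfold ind; split_ifs <;> norm_num

lemma ind_le_one (E : Finset X) (s : X) : ind E s ≤ 1 := by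
  unfold ind; split_ifs <;> norm_num

lemma Zp_rS (E : Finset X) (u : ι → ℝ) : Zp k (rS S E) u = ∑ s, ez k S u s * ind E s := by
  unfold Zp
  have h1 : ∑ s : E, ez k (rS S E) u s = ∑ s : E, ez k S u s.1 := rfl
  rw [h1, Finset.sum_coe_sort E (fun s => ez k S u s)]
  unfold ind
  simp only [mul_ite, mul_one, mul_zero]
  rw [Finset.sum_ite_mem, Finset.univ_inter]

lemma av_ind (E : Finset X) (u : ι → ℝ) : av k S (ind E) u = Zp k (rS S E) u / Zp k S u := by
  unfold av
  rw [Zp_rS]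

lemma Zp_rS_le (E : Finset X) (u : ι → ℝ) : Zp k (rS S E) u ≤ Zp k S u := by
  rw [Zp_rS]
  unfold Zp
  refine Finset.sum_le_sum fun s _ => ?_
  have := mul_le_mul_of_nonneg_left (ind_le_one E s) (ez_pos k S u s).le
  simpa using this

/-- the restricted partition function dominates -/
lemma Zx_av_le {x : ℝ} (hx1 : x ≤ 1) (E : Finset X) [Nonempty E] (u : ι → ℝ) :
    Zx k S x u * av k S (ind E) u ≤ Zx k (rS S E) x u := by
  have p0 := Zp_pos k S u
  have p1 := Zp_pos k (rS S E) u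
  rw [av_ind]
  unfold Zx
  have e1 : Zp k (rS S E) u / Zp k S u =
      Real.exp (Real.log (Zp k (rS S E) u) - Real.log (Zp k S u)) := by
    rw [Real.exp_sub, Real.exp_log p0, Real.exp_log p1]
  rw [e1, ← Real.exp_add]
  refine Real.exp_le_exp.2 ?_
  have h := Real.log_le_log p1 (Zp_rS_le k S E u)
  nlinarith

lemma lz_rS_le (E : Finset X) [Nonempty E] (u : ι → ℝ) : lz k (rS S E) u ≤ lz k S u :=
  Real.log_le_log (Zp_pos k (rS S E) u) (Zp_rS_le k S E u)

/-- monotonicity of the layer functional -/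
lemma W_mono {F G : (ι → ℝ) → ℝ} {B B' : ℝ} (hF : LipB F B) (hB : 0 ≤ B) (hG : LipB G B')
    (hB' : 0 ≤ B') {x : ℝ} (hx : 0 < x) (hFG : ∀ u, F u ≤ G u) (b : ℝ) (y : ι → ℝ) :
    W x b F y ≤ W x b G y := by
  unfold W
  refine mul_le_mul_of_nonneg_left ?_ (by positivity)
  refine Real.log_le_log (hF.pos hB y b x) ?_
  refine integral_mono (hF.int_exp hB y b x) (hG.int_exp hB' y b x) fun z => ?_
  exact Real.exp_le_exp.2 (mul_le_mul_of_nonneg_left (hFG _) hx.le)

/-- a linear lower bound of the gradient gives a lower bound of its square -/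
lemma G2_ge {F : (ι → ℝ) → ℝ} {D : ι → (ι → ℝ) → ℝ} {B L : ℝ} (hF : C11 F D B L) {v : ι → ℝ}
    {c V : ℝ} (hc : 0 ≤ c) (hD : ∀ u, c ≤ ∑ e, v e * D e u) (hV : ∑ e, v e ^ 2 ≤ V)
    (hV0 : 0 < V) (x b : ℝ) (y : ι → ℝ) : c ^ 2 / V ≤ G2 x b F D y := by
  set Q : (ι → ℝ) → ℝ := fun z => Real.exp (x * F (y + b • z)) with hQ
  have hpos : 0 < ∫ z, Q z ∂(gI ι) := hF.lip.pos hF.B0 y b x
  have eD : ∀ e, EG (D e) := fun e => EG.of_bdd (hF.meas e) (hF.bd e)
  have eQ : EG Q := hF.lip.eg_exp hF.B0 y b x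
  have hI : ∀ e, Integrable (fun z => Q z * D e (y + b • z)) (gI ι) := fun e =>
    (eQ.mul (EG.add_smul (eD e) y b)).integrable
  have h1 : c ≤ ∑ e, v e * DW x b F D e y := by
    have e1 : ∑ e, v e * DW x b F D e y =
        (∫ z, Q z * (∑ e, v e * D e (y + b • z)) ∂(gI ι)) / ∫ z, Q z ∂(gI ι) := by
      unfold DW
      have e2 : ∀ e, v e * ((∫ z, Q z * D e (y + b • z) ∂(gI ι)) / ∫ z, Q z ∂(gI ι)) =
          (∫ z, v e * (Q z * D e (y + b • z)) ∂(gI ι)) / ∫ z, Q z ∂(gI ι) := fun e => by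
        rw [integral_const_mul, mul_div_assoc]
      rw [Finset.sum_congr rfl fun e _ => e2 e, ← Finset.sum_div,
        ← integral_finsetSum _ fun e _ => (hI e).const_mul _]
      congr 1
      refine integral_congr_ae (Filter.Eventually.of_forall fun z => ?_)
      simp only
      rw [Finset.mul_sum]
      exact Finset.sum_congr rfl fun e _ => by ring
    rw [e1, le_div_iff₀ hpos, ← integral_const_mul]
    refine integral_mono (eQ.integrable.const_mul _) ?_ fun z => ?_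
    · exact (eQ.mul (EG.sum _ fun e _ =>
        (EG.add_smul (eD e) y b).const_mul (v e))).integrable
    · simp only
      rw [mul_comm]
      exact mul_le_mul_of_nonneg_left (hD _) (Real.exp_pos _).le
  have h5 : (∑ e, v e * DW x b F D e y) ^ 2 ≤ (∑ e, v e ^ 2) * G2 x b F D y :=
    Finset.sum_mul_sq_le_sq_mul_sq _ _ _
  have h6 : 0 ≤ G2 x b F D y := Finset.sum_nonneg fun _ _ => sq_nonneg _
  rw [div_le_iff₀ hV0]
  calc c ^ 2 ≤ _ := pow_le_pow_left₀ hc h1 2
    _ ≤ _ := h5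
    _ ≤ V * G2 x b F D y := mul_le_mul_of_nonneg_right hV h6
    _ = _ := by ring

/-- **A functional below `F` whose gradient is large in one direction is exponentially smaller.** -/
theorem restr_W' {F G : (ι → ℝ) → ℝ} {D D' : ι → (ι → ℝ) → ℝ} {B L B' L' : ℝ}
    (hG : C11 G D' B' L') (hGc : Cv G) (hF : C11 F D B L) (hGF : ∀ u, G u ≤ F u) {v : ι → ℝ}
    {c V x : ℝ} (hx : 0 < x) (hc : 0 ≤ c) (hD : ∀ u, c ≤ ∑ e, v e * D' e u)
    (hV : ∑ e, v e ^ 2 ≤ V) (hV0 : 0 < V) (b : ℝ) (y : ι → ℝ) :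
    x * W x b G y ≤ x * W (2 * x) b F y - x ^ 2 / 2 * (b ^ 2 * (c ^ 2 / V)) := by
  have h1 := W_two_ge (b := b) hG hGc hx y
  have h2 := W_mono hG.lip hG.B0 hF.lip hF.B0 (x := 2 * x) (by positivity) hGF b y
  have h3 := G2_ge hG hc hD hV hV0 x b y
  have h4 : x / 2 * (b ^ 2 * (c ^ 2 / V)) ≤ x / 2 * (b ^ 2 * G2 x b G D' y) := by gcongr
  have h5 : W x b G y ≤ W (2 * x) b F y - x / 2 * (b ^ 2 * (c ^ 2 / V)) := by linarith
  calc x * W x b G y ≤ x * (W (2 * x) b F y - x / 2 * (b ^ 2 * (c ^ 2 / V))) :=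
        mul_le_mul_of_nonneg_left h5 hx.le
    _ = _ := by ring

/-- the restricted functional is exponentially smaller -/
lemma restr_W (hk : 0 ≤ k) (E : Finset X) [Nonempty E] {v : ι → ℝ} {m V x : ℝ} (hx : 0 < x)
    (hm : 0 ≤ m) (hE : ∀ s ∈ E, m ≤ ∑ e, v e * S e s) (hV : ∑ e, v e ^ 2 ≤ V) (hV0 : 0 < V)
    (b : ℝ) (y : ι → ℝ) :
    x * W x b (lz k (rS S E)) y ≤
      x * W (2 * x) b (lz k S) y - x ^ 2 / 2 * (b ^ 2 * (k ^ 2 * m ^ 2 / V)) := by
  have h := restr_W' (c11_lz k (rS S E)) (cv_lz k (rS S E)) (c11_lz k S) (lz_rS_le k S E)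
    (v := v) (c := k * m) hx (by positivity) (fun u => ?_) hV hV0 b y
  · rwa [mul_pow] at h
  · have h3 := av_mono k (rS S E) (h := fun _ => m) (g := fun s => ∑ e, v e * rS S E e s)
      (fun s => hE s.1 s.2) u
    rw [av_const, av_sum] at h3
    calc k * m ≤ k * ∑ e, av k (rS S E) (fun s => v e * rS S E e s) u :=
          mul_le_mul_of_nonneg_left h3 hk
      _ = _ := by
          rw [Finset.mul_sum]
          refine Finset.sum_congr rfl fun e _ => ?_
          rw [av_mul]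
          ring

/-- **Thermal tail at a frozen position.** -/
theorem tail (hk : 0 ≤ k) (E : Finset X) {v : ι → ℝ} {m V x : ℝ} (hx : 0 < x) (hx1 : x ≤ 1)
    (hm : 0 ≤ m) (hE : ∀ s ∈ E, m ≤ ∑ e, v e * S e s) (hV : ∑ e, v e ^ 2 ≤ V) (hV0 : 0 < V)
    (b : ℝ) (y : ι → ℝ) :
    ∫ z, Zx k S x (y + b • z) * av k S (ind E) (y + b • z) ∂(gI ι) ≤
      Real.exp (x * W (2 * x) b (lz k S) y - x ^ 2 / 2 * (b ^ 2 * (k ^ 2 * m ^ 2 / V))) := by
  rcases isEmpty_or_nonempty E with hem | hne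
  · have e0 : ∀ u, av k S (ind E) u = 0 := by
      intro u
      have : ind E = fun _ : X => (0 : ℝ) := by
        funext s
        unfold ind
        rw [if_neg]
        intro hs
        exact hem.elim ⟨s, hs⟩
      rw [this, av_const]
    simp only [e0, mul_zero, integral_zero]
    exact (Real.exp_pos _).le
  · have hc := c11_lz k (rS S E)
    refine le_trans ?_ (Real.exp_le_exp.2 (restr_W k S hk E hx hm hE hV hV0 b y))
    rw [hc.lip.exp_W hc.B0 hx]
    refine integral_mono ?_ (hc.lip.int_exp hc.B0 y b x) fun z => Zx_av_le k S hx1 E _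
    exact (EG.add_smul ((eg_Zx k S x).mul (eg_av k S (ind E))) y b).integrable

/-- the normalisation of the law of the completion of the position `y` -/
noncomputable def Zb (x b : ℝ) (y : ι → ℝ) : ℝ := ∫ z, Zx k S x (y + b • z) ∂(gI ι)

/-- the mean of `f` over one completion of the position `y` -/
noncomputable def mn (x b : ℝ) (f : X → ℝ) (y : ι → ℝ) : ℝ :=
  (∫ z, Zx k S x (y + b • z) * av k S f (y + b • z) ∂(gI ι)) / Zb k S x b y

lemma Zb_eq {x : ℝ} (hx : 0 < x) (b : ℝ) (y : ι → ℝ) :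
    Zb k S x b y = Real.exp (x * W x b (lz k S) y) := by
  have hc := c11_lz k S
  rw [hc.lip.exp_W hc.B0 hx]
  rfl

lemma Zb_pos (x b : ℝ) (y : ι → ℝ) : 0 < Zb k S x b y := by
  have hc := c11_lz k S
  exact hc.lip.pos hc.B0 y b x

lemma int_Zx_av (x b : ℝ) (f : X → ℝ) (y : ι → ℝ) :
    Integrable (fun z => Zx k S x (y + b • z) * av k S f (y + b • z)) (gI ι) :=
  (EG.add_smul ((eg_Zx k S x).mul (eg_av k S f)) y b).integrable

lemma mn_const (x b c : ℝ) (y : ι → ℝ) : mn k S x b (fun _ => c) y = c := by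
  unfold mn
  simp only [av_const]
  rw [integral_mul_const]
  exact mul_div_cancel_left₀ c (Zb_pos k S x b y).ne'

lemma mn_sum {J : Type} (T : Finset J) (x b : ℝ) (f : J → X → ℝ) (y : ι → ℝ) :
    mn k S x b (fun s => ∑ j ∈ T, f j s) y = ∑ j ∈ T, mn k S x b (f j) y := by
  unfold mn
  rw [← Finset.sum_div]
  congr 1
  rw [← integral_finsetSum _ fun j _ => int_Zx_av k S x b (f j) y]
  refine integral_congr_ae (Filter.Eventually.of_forall fun z => ?_)
  simp only
  rw [av_sum, Finset.mul_sum]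

lemma mn_mul (x b c : ℝ) (f : X → ℝ) (y : ι → ℝ) :
    mn k S x b (fun s => c * f s) y = c * mn k S x b f y := by
  unfold mn
  rw [← mul_div_assoc, ← integral_const_mul]
  congr 1
  refine integral_congr_ae (Filter.Eventually.of_forall fun z => ?_)
  simp only
  rw [av_mul]
  ring

lemma mn_mono (x b : ℝ) {f g : X → ℝ} (h : ∀ s, f s ≤ g s) (y : ι → ℝ) :
    mn k S x b f y ≤ mn k S x b g y := by
  unfold mn
  refine div_le_div_of_nonneg_right ?_ (Zb_pos k S x b y).le
  refine integral_mono (int_Zx_av k S x b f y) (int_Zx_av k S x b g y) fun z => ?_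
  exact mul_le_mul_of_nonneg_left (av_mono k S h _) (Zx_pos k S x _).le

lemma mn_nonneg (x b : ℝ) {f : X → ℝ} (h : ∀ s, 0 ≤ f s) (y : ι → ℝ) :
    0 ≤ mn k S x b f y := by
  have := mn_mono k S x b (f := fun _ => 0) (g := f) h y
  rwa [mn_const] at this

/-- the two replica mean: both replicas complete the position `y` independently -/
noncomputable def mn2 (x b : ℝ) (f : X → X → ℝ) (y : ι → ℝ) : ℝ :=
  mn k S x b (fun s' => mn k S x b (f s') y) y

/-- **Thermal tail of two replicas at a frozen position.** -/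
theorem tail_two (hk : 0 ≤ k) (E : X → Finset X) {v : X → ι → ℝ} {m V x : ℝ} (hx : 0 < x)
    (hx1 : x ≤ 1) (hm : 0 ≤ m) (hE : ∀ s', ∀ s ∈ E s', m ≤ ∑ e, v s' e * S e s)
    (hV : ∀ s', ∑ e, v s' e ^ 2 ≤ V) (hV0 : 0 < V) (b : ℝ) (y : ι → ℝ) :
    Zb k S x b y * mn2 k S x b (fun s' => ind (E s')) y ≤
      Real.exp (x * W (2 * x) b (lz k S) y - x ^ 2 / 2 * (b ^ 2 * (k ^ 2 * m ^ 2 / V))) := by
  set M := Real.exp (x * W (2 * x) b (lz k S) y - x ^ 2 / 2 * (b ^ 2 * (k ^ 2 * m ^ 2 / V)))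
  have hZ := Zb_pos k S x b y
  have h1 : mn2 k S x b (fun s' => ind (E s')) y ≤ M / Zb k S x b y := by
    unfold mn2
    refine (mn_mono k S x b (g := fun _ => M / Zb k S x b y) (fun s' => ?_) y).trans_eq
      (mn_const k S x b _ y)
    exact div_le_div_of_nonneg_right (tail k S hk (E s') hx hx1 hm (hE s') (hV s') hV0 b y) hZ.le
  calc Zb k S x b y * mn2 k S x b (fun s' => ind (E s')) y ≤ Zb k S x b y * (M / Zb k S x b y) :=
        mul_le_mul_of_nonneg_left h1 hZ.le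
    _ = M := mul_div_cancel₀ M hZ.ne'

/-- the double mean is jointly measurable and bounded in the position -/
lemma eg_Zb {x : ℝ} (b : ℝ) : EG (Zb k S x b) := EG.conv (eg_Zx k S x) b

lemma eg_num {x : ℝ} (b : ℝ) (f : X → ℝ) :
    EG fun y => ∫ z, Zx k S x (y + b • z) * av k S f (y + b • z) ∂(gI ι) :=
  EG.conv ((eg_Zx k S x).mul (eg_av k S f)) b

lemma abs_mn_le (x b : ℝ) {f : X → ℝ} {C : ℝ} (h : ∀ s, |f s| ≤ C) (y : ι → ℝ) :
    |mn k S x b f y| ≤ C := by
  rw [abs_le]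
  constructor
  · have := mn_mono k S x b (f := fun _ => -C) (g := f) (fun s => (abs_le.1 (h s)).1) y
    rwa [mn_const] at this
  · have := mn_mono k S x b (f := f) (g := fun _ => C) (fun s => (abs_le.1 (h s)).2) y
    rwa [mn_const] at this

lemma eg_mn (x b : ℝ) (f : X → ℝ) : EG fun y => mn k S x b f y := by
  refine EG.of_bdd (C := supn f) ?_ fun y => abs_mn_le k S x b (le_supn f) y
  exact (eg_num k S b f).meas.div (eg_Zb k S b).meas

/-- the two replica mean as a finite sum -/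
lemma mn2_eq (x b : ℝ) (f : X → X → ℝ) (y : ι → ℝ) :
    mn2 k S x b f y =
      ∑ s', mn k S x b (fun t => if t = s' then 1 else 0) y * mn k S x b (f s') y := by
  unfold mn2
  have e1 : (fun s' => mn k S x b (f s') y) =
      fun t => ∑ s', mn k S x b (f s') y * (if t = s' then (1 : ℝ) else 0) := by
    funext t
    simp
  rw [e1, mn_sum]
  refine Finset.sum_congr rfl fun s' _ => ?_
  rw [mn_mul, mul_comm]

lemma eg_mn2 (x b : ℝ) (f : X → X → ℝ) : EG fun y => mn2 k S x b f y := by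
  have e1 : (fun y => mn2 k S x b f y) = fun y =>
      ∑ s', mn k S x b (fun t => if t = s' then 1 else 0) y * mn k S x b (f s') y :=
    funext fun y => mn2_eq k S x b f y
  rw [e1]
  exact EG.sum _ fun s' _ => (eg_mn k S x b _).mul (eg_mn k S x b _)

/-- **Thermal tail of two replicas under the tilted law.** -/
theorem tail_exp (hk : 0 ≤ k) (E : X → Finset X) {v : X → ι → ℝ} {m V x : ℝ} (hx : 0 < x)
    (hx1 : x ≤ 1) (hm : 0 ≤ m) (hE : ∀ s', ∀ s ∈ E s', m ≤ ∑ e, v s' e * S e s)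
    (hV : ∀ s', ∑ e, v s' e ^ 2 ≤ V) (hV0 : 0 < V) {a b : ℝ} (hab : a ^ 2 + b ^ 2 = 1) :
    ∫ z, Zb k S x b (a • z) * mn2 k S x b (fun s' => ind (E s')) (a • z) ∂(gI ι) ≤
      Real.exp (x * W (2 * x) 1 (lz k S) 0 - x ^ 2 / 2 * (b ^ 2 * (k ^ 2 * m ^ 2 / V))) := by
  have hc := c11_lz k S
  have hx2 : 0 < 2 * x := by positivity
  have h1 := int_exp_two hc hx hab
  have i1 : Integrable (fun z => Real.exp (x * W (2 * x) b (lz k S) (a • z))) (gI ι) :=
    (EG.smul' ((hc.W' hx2 b).eg_exp x) a).integrable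
  have i2 : Integrable (fun z => Zb k S x b (a • z) *
      mn2 k S x b (fun s' => ind (E s')) (a • z)) (gI ι) :=
    (EG.smul' ((eg_Zb k S b).mul (eg_mn2 k S x b _)) a).integrable
  calc ∫ z, Zb k S x b (a • z) * mn2 k S x b (fun s' => ind (E s')) (a • z) ∂(gI ι)
      ≤ ∫ z, Real.exp (x * W (2 * x) b (lz k S) (a • z)) *
          Real.exp (-(x ^ 2 / 2 * (b ^ 2 * (k ^ 2 * m ^ 2 / V)))) ∂(gI ι) := by
        refine integral_mono i2 (i1.mul_const _) fun z => ?_
        simp only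
        rw [← Real.exp_add, ← sub_eq_add_neg]
        exact tail_two k S hk E hx hx1 hm hE hV hV0 b (a • z)
    _ = (∫ z, Real.exp (x * W (2 * x) b (lz k S) (a • z)) ∂(gI ι)) *
          Real.exp (-(x ^ 2 / 2 * (b ^ 2 * (k ^ 2 * m ^ 2 / V)))) := integral_mul_const _ _
    _ ≤ Real.exp (x * W (2 * x) 1 (lz k S) 0) *
          Real.exp (-(x ^ 2 / 2 * (b ^ 2 * (k ^ 2 * m ^ 2 / V)))) :=
        mul_le_mul_of_nonneg_right h1 (Real.exp_pos _).le
    _ = _ := by rw [← Real.exp_add, ← sub_eq_add_neg]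

end Vale.Agent.P146.H281
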