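import Vale.Agent.P146.H118.CM
import Vale.Agent.P146.H281.ThermalTail

/-!
The block form (position `H332.P A0 a b c`) of the exponential moment of the squared gradient
(`H425.ut`) and of the thermal tail.
-/

open MeasureTheory ProbabilityTheory Filter Topology

namespace Vale.Agent.P146.H281

open Vale.Agent.P157.Lv Vale.Agent.P146.H425 Vale.Agent.P146.H332 Vale.Agent.P146.H118

set_option linter.unusedSectionVars false

variable {ι : Type} [Fintype ι] [DecidableEq ι]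

/-- the coefficient of the noise -/
noncomputable def gc (A0 : Finset ι) (c : ι → ℝ) (s : ℝ) (e : ι) : ℝ :=
  if e ∈ A0 then √(1 - s) else c e

variable {A0 : Finset ι} {a b c : ι → ℝ} {x s : ℝ} {F G : (ι → ℝ) → ℝ} {D D' : ι → (ι → ℝ) → ℝ}
  {B L B' L' : ℝ}

/-- **The position together with the noise is a standard Gaussian vector.** -/
theorem int_P {G : (ι → ℝ) → ℝ} (hG : EG G) (hs : s ∈ Set.Icc (0 : ℝ) 1)
    (hn : ∀ e, e ∉ A0 → a e ^ 2 + b e ^ 2 + c e ^ 2 = 1) :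
    ∫ w, P A0 a b c G s w ∂(gI (ι ⊕ ι)) = ∫ y, G y ∂(gI ι) := by
  set al : ι → ℝ := fun e => if e ∈ A0 then √s else a e with hal
  set be : ι → ℝ := fun e => if e ∈ A0 then 0 else b e with hbe
  have h1s : 0 ≤ 1 - s := by linarith [hs.2]
  rw [int_sum (eg_P hG hs)]
  have e1 : ∀ w1 w2 z : ι → ℝ, pt A0 a b c s (Sum.elim w1 w2) z =
      fun e => al e * w1 e + be e * w2 e + gc A0 c s e * z e := by
    intro w1 w2 z
    funext e
    unfold pt u gc
    simp only [hal, hbe, Sum.elim_inl, Sum.elim_inr]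
    split_ifs with h
    · ring
    · ring
  set d : ι → ℝ := fun e => √(be e ^ 2 + gc A0 c s e ^ 2) with hd
  have hd2 : ∀ e, be e ^ 2 + gc A0 c s e ^ 2 = d e ^ 2 := fun e => by
    rw [hd]
    exact (Real.sq_sqrt (by positivity)).symm
  have h2 : ∀ w1 : ι → ℝ, ∫ w2, P A0 a b c G s (Sum.elim w1 w2) ∂(gI ι) =
      ∫ z, G (fun e => al e * w1 e + d e * z e) ∂(gI ι) := by
    intro w1
    rw [← H325.rotv hG hd2 fun e => al e * w1 e]
    refine integral_congr_ae (Eventually.of_forall fun w2 => ?_)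
    show P A0 a b c G s (Sum.elim w1 w2) = _
    unfold P
    refine integral_congr_ae (Eventually.of_forall fun z => ?_)
    show G (pt A0 a b c s (Sum.elim w1 w2) z) = _
    rw [e1]
  simp only [h2]
  have h3 : ∀ e, al e ^ 2 + d e ^ 2 = (1 : ℝ) ^ 2 := by
    intro e
    rw [← hd2 e]
    simp only [hal, hbe, gc]
    split_ifs with h
    · rw [Real.sq_sqrt hs.1, Real.sq_sqrt h1s]
      ring
    · have := hn e h
      linarith
  have h4 := H325.rotv hG (a := al) (b := d) (c := fun _ => 1) h3 fun _ => 0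
  simp only [zero_add, one_mul] at h4
  exact h4

/-- the section of `F` at the position `w` -/
noncomputable def Fw (A0 : Finset ι) (a b c : ι → ℝ) (F : (ι → ℝ) → ℝ) (s : ℝ) (w : ι ⊕ ι → ℝ)
    (z : ι → ℝ) : ℝ := F (pt A0 a b c s w z)

/-- its gradient -/
noncomputable def Dw (A0 : Finset ι) (a b c : ι → ℝ) (D : ι → (ι → ℝ) → ℝ) (s : ℝ)
    (w : ι ⊕ ι → ℝ) (e : ι) (z : ι → ℝ) : ℝ := gc A0 c s e * D e (pt A0 a b c s w z)

lemma pt_eq (s : ℝ) (w : ι ⊕ ι → ℝ) (z : ι → ℝ) :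
    pt A0 a b c s w z = fun e => u A0 a b s w e + gc A0 c s e * z e := rfl

lemma pt_add (s : ℝ) (w : ι ⊕ ι → ℝ) (z v : ι → ℝ) :
    pt A0 a b c s w (z + v) = pt A0 a b c s w z + fun e => gc A0 c s e * v e := by
  funext e
  rw [pt_eq, pt_eq]
  simp only [Pi.add_apply]
  ring

/-- the section is of class `C11` -/
lemma c11_Fw (h : C11 F D B L) (s : ℝ) (w : ι ⊕ ι → ℝ) :
    C11 (Fw A0 a b c F s w) (Dw A0 a b c D s w) (H325.bK (gc A0 c s) * B)
      (H325.bK (gc A0 c s) ^ 2 * L) := by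
  have hB := h.B0
  have hL := h.L0
  have hK := H325.bK_nonneg (gc A0 c s)
  have hnv : ∀ v : ι → ℝ, ‖fun e => gc A0 c s e * v e‖ ≤ H325.bK (gc A0 c s) * ‖v‖ := by
    intro v
    have := H325.norm_aff_le (0 : ι → ℝ) (gc A0 c s) v (H325.le_bK (gc A0 c s))
    simpa using this
  refine ⟨by positivity, by positivity, fun z v => ?_, fun e => ?_, fun e z => ?_, fun z v => ?_⟩
  · unfold Fw
    rw [pt_add]
    refine (h.lip _ _).trans ?_
    have := mul_le_mul_of_nonneg_left (hnv v) hB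
    linarith
  · exact ((h.meas e).comp (measurable_pt_right A0 a b c s w)).const_mul _
  · unfold Dw
    rw [abs_mul]
    exact mul_le_mul (H325.le_bK _ e) (h.bd e _) (abs_nonneg _) hK
  · unfold Fw Dw
    rw [pt_add]
    have h1 := h.quad (pt A0 a b c s w z) (fun e => gc A0 c s e * v e)
    have e1 : ∑ e, D e (pt A0 a b c s w z) * (gc A0 c s e * v e) =
        ∑ e, gc A0 c s e * D e (pt A0 a b c s w z) * v e :=
      Finset.sum_congr rfl fun e _ => by ring
    rw [e1] at h1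
    refine h1.trans ?_
    have h2 := pow_le_pow_left₀ (norm_nonneg _) (hnv v) 2
    calc L * ‖fun e => gc A0 c s e * v e‖ ^ 2 ≤ L * (H325.bK (gc A0 c s) * ‖v‖) ^ 2 :=
          mul_le_mul_of_nonneg_left h2 hL
      _ = _ := by ring

/-- the section is convex -/
lemma cv_Fw (hc : Cv F) (s : ℝ) (w : ι ⊕ ι → ℝ) : Cv (Fw A0 a b c F s w) := by
  intro p q hp hq hpq w0 w1
  have h1 := hc p q hp hq hpq (pt A0 a b c s w w0) (pt A0 a b c s w w1)
  have e : p • pt A0 a b c s w w0 + q • pt A0 a b c s w w1 =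
      pt A0 a b c s w (p • w0 + q • w1) := by
    funext e
    rw [pt_eq, pt_eq, pt_eq]
    simp only [Pi.add_apply, Pi.smul_apply, smul_eq_mul]
    have : q = 1 - p := by linarith
    rw [this]
    ring
  rw [e] at h1
  exact h1

/-- the density of the position in terms of the layer functional -/
lemma zd_W (h : C11 F D B L) (hx : 0 < x) (s : ℝ) (w : ι ⊕ ι → ℝ) :
    zd A0 a b c x F s w = Real.exp (x * W x 1 (Fw A0 a b c F s w) 0) := by
  have h1 := c11_Fw (A0 := A0) (a := a) (b := b) (c := c) h s w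
  rw [h1.lip.exp_W h1.B0 hx]
  simp only [zero_add, one_smul]
  rfl

/-- the gradient of the layer functional of the section -/
lemma DW_cm (h : C11 F D B L) (s : ℝ) (w : ι ⊕ ι → ℝ) (e : ι) :
    DW x 1 (Fw A0 a b c F s w) (Dw A0 a b c D s w) e 0 =
      gc A0 c s e * cm A0 a b c x F (D e) s w := by
  unfold DW cm zd P Fw Dw
  simp only [zero_add, one_smul]
  rw [div_eq_mul_inv, ← mul_assoc, ← integral_const_mul]
  congr 2
  funext z
  ring

/-- the squared gradient of the section -/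
lemma G2_cm (h : C11 F D B L) (s : ℝ) (w : ι ⊕ ι → ℝ) :
    G2 x 1 (Fw A0 a b c F s w) (Dw A0 a b c D s w) 0 =
      ∑ e, gc A0 c s e ^ 2 * cm A0 a b c x F (D e) s w ^ 2 := by
  unfold G2
  refine Finset.sum_congr rfl fun e _ => ?_
  rw [DW_cm h]
  ring

/-- **Pointwise in the position**: the doubled exponent dominates the squared gradient. -/
theorem zd_exp_le (h : C11 F D B L) (hc : Cv F) (hx : 0 < x) (s : ℝ) (w : ι ⊕ ι → ℝ) :
    zd A0 a b c x F s w *
        Real.exp (x ^ 2 / 2 * ∑ e, gc A0 c s e ^ 2 * cm A0 a b c x F (D e) s w ^ 2) ≤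
      √(zd A0 a b c (2 * x) F s w) := by
  have h1 := c11_Fw (A0 := A0) (a := a) (b := b) (c := c) h s w
  have h2 := W_two_ge (b := 1) h1 (cv_Fw (A0 := A0) (a := a) (b := b) (c := c) hc s w) hx 0
  rw [G2_cm h] at h2
  rw [zd_W h hx, zd_W h (by positivity : 0 < 2 * x), ← Real.exp_add,
    Real.sqrt_eq_rpow, ← Real.exp_mul]
  refine Real.exp_le_exp.2 ?_
  have h3 := mul_le_mul_of_nonneg_left h2 hx.le
  linarith

lemma eg_sqrt {f : (ι ⊕ ι → ℝ) → ℝ} (hf : EG f) : EG fun w => √(f w) := by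
  refine (hf.abs.add (EG.const 1)).mono (hf.meas.sqrt) fun w => ?_
  rw [abs_of_nonneg (Real.sqrt_nonneg _),
    abs_of_nonneg (add_nonneg (abs_nonneg _) zero_le_one)]
  refine (Real.sqrt_le_sqrt (le_abs_self (f w))).trans ?_
  rw [Real.sqrt_le_left (by positivity)]
  nlinarith [abs_nonneg (f w)]

/-- the mean of the root of the density with the doubled exponent -/
theorem int_sqrt_zd (h : C11 F D B L) (hx : 0 < x) (hs : s ∈ Set.Icc (0 : ℝ) 1)
    (hn : ∀ e, e ∉ A0 → a e ^ 2 + b e ^ 2 + c e ^ 2 = 1) :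
    ∫ w, √(zd A0 a b c (2 * x) F s w) ∂(gI (ι ⊕ ι)) ≤ Real.exp (x * W (2 * x) 1 F 0) := by
  have hx2 : 0 < 2 * x := by positivity
  have eZ : EG fun w => zd A0 a b c (2 * x) F s w := eg_P (h.eg_exp (2 * x)) hs
  have p0 : ∀ w, 0 < zd A0 a b c (2 * x) F s w := fun w => zd_pos h (2 * x) s w
  have h3 := cs_int (q := fun _ : ι ⊕ ι → ℝ => (1 : ℝ)) (EG.const 1) (fun _ => zero_le_one)
    (by simp) (eg_sqrt eZ)
  simp only [one_mul, integral_const, probReal_univ, smul_eq_mul] at h3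
  have e1 : ∫ w, √(zd A0 a b c (2 * x) F s w) ^ 2 ∂(gI (ι ⊕ ι)) =
      Real.exp (x * W (2 * x) 1 F 0) ^ 2 := by
    have e2 : ∀ w, √(zd A0 a b c (2 * x) F s w) ^ 2 = zd A0 a b c (2 * x) F s w := fun w =>
      Real.sq_sqrt (p0 w).le
    simp_rw [e2]
    unfold zd
    rw [int_P (h.eg_exp (2 * x)) hs hn, ← Real.exp_nat_mul]
    have e3 : ((2 : ℕ) : ℝ) * (x * W (2 * x) 1 F 0) = 2 * x * W (2 * x) 1 F 0 := by
      push_cast; ring
    rw [e3, h.lip.exp_W h.B0 hx2]
    simp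
  rw [e1] at h3
  have h5 : (∫ w, √(zd A0 a b c (2 * x) F s w) ∂(gI (ι ⊕ ι))) ^ 2 ≤
      Real.exp (x * W (2 * x) 1 F 0) ^ 2 := by simpa using h3
  exact (abs_le.1 (abs_le_of_sq_le_sq h5 (Real.exp_pos _).le)).2

/-- **THE EXPONENTIAL MOMENT of the squared gradient given the position, block form.** -/
theorem exp_grad (h : C11 F D B L) (hc : Cv F) (hx : 0 < x) (hs : s ∈ Set.Icc (0 : ℝ) 1)
    (hn : ∀ e, e ∉ A0 → a e ^ 2 + b e ^ 2 + c e ^ 2 = 1) :
    ∫ w, zd A0 a b c x F s w *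
        Real.exp (x ^ 2 / 2 * ∑ e, gc A0 c s e ^ 2 * cm A0 a b c x F (D e) s w ^ 2)
        ∂(gI (ι ⊕ ι)) ≤ Real.exp (x * W (2 * x) 1 F 0) := by
  refine le_trans ?_ (int_sqrt_zd (A0 := A0) (a := a) (b := b) (c := c) h hx hs hn)
  have eZ2 : EG fun w => zd A0 a b c (2 * x) F s w := eg_P (h.eg_exp (2 * x)) hs
  refine integral_mono_of_nonneg (Eventually.of_forall fun w => ?_)
    (eg_sqrt eZ2).integrable (Eventually.of_forall fun w => zd_exp_le h hc hx s w)
  exact mul_nonneg (zd_pos h x s w).le (Real.exp_pos _).le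

/-! ### the thermal tail -/

/-- **Thermal tail given the position.** `G` is a functional below `F` (a restricted partition
function) whose gradient is at least `c0` in the direction `v` of the active coordinates. -/
theorem thermal_pos (hF : C11 F D B L) (hG : C11 G D' B' L') (hGc : Cv G)
    (hGF : ∀ y, G y ≤ F y) (hx : 0 < x) {N : (ι → ℝ) → ℝ} (hN : EG N)
    (hNG : ∀ y, N y ≤ Real.exp (x * G y)) {v : ι → ℝ} (hv : ∀ e, e ∉ A0 → v e = 0)
    {c0 V : ℝ} (hc0 : 0 ≤ c0) (hD : ∀ y, c0 ≤ ∑ e, v e * D' e y) (hV : ∑ e, v e ^ 2 ≤ V)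
    (hV0 : 0 < V) (hs1 : s < 1) (w : ι ⊕ ι → ℝ) :
    P A0 a b c N s w ≤ Real.exp (-(x ^ 2 / 2 * ((1 - s) * (c0 ^ 2 / V)))) *
      √(zd A0 a b c (2 * x) F s w) := by
  have h1s : 0 < 1 - s := by linarith
  have hq : √(1 - s) ^ 2 = 1 - s := Real.sq_sqrt h1s.le
  have hq0 : 0 < √(1 - s) := Real.sqrt_pos.2 h1s
  have k1 := c11_Fw (A0 := A0) (a := a) (b := b) (c := c) hF s w
  have k2 := c11_Fw (A0 := A0) (a := a) (b := b) (c := c) hG s w
  have h1 := restr_W' (v := fun e => v e / √(1 - s)) (V := V / (1 - s)) (b := 1) (y := 0) k2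
    (cv_Fw (A0 := A0) (a := a) (b := b) (c := c) hGc s w) k1 (fun z => hGF _) hx hc0
    (fun z => ?_) ?_ (by positivity)
  · refine (P_mono hN (hG.eg_exp x) hNG s w).trans ?_
    have e1 : P A0 a b c (fun y => Real.exp (x * G y)) s w =
        Real.exp (x * W x 1 (Fw A0 a b c G s w) 0) := zd_W hG hx s w
    rw [e1, zd_W hF (by positivity : 0 < 2 * x), Real.sqrt_eq_rpow, ← Real.exp_mul,
      ← Real.exp_add]
    refine Real.exp_le_exp.2 ?_
    have e2 : c0 ^ 2 / (V / (1 - s)) = (1 - s) * (c0 ^ 2 / V) := by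
      field_simp
    rw [e2] at h1
    linarith
  · refine (hD (pt A0 a b c s w z)).trans (le_of_eq ?_)
    refine Finset.sum_congr rfl fun e _ => ?_
    unfold Dw gc
    by_cases he : e ∈ A0
    · rw [if_pos he]
      field_simp
    · rw [hv e he]
      simp
  · have e3 : ∑ e, (v e / √(1 - s)) ^ 2 = (∑ e, v e ^ 2) / (1 - s) := by
      rw [Finset.sum_div]
      exact Finset.sum_congr rfl fun e _ => by rw [div_pow, hq]
    rw [e3]
    exact div_le_div_of_nonneg_right hV h1s.le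

/-- **THERMAL TAIL OF TWO REPLICAS, block form.** `p j` is the weight of the label `j` of the
second replica (`∑ p = 1`), `q j` the Gibbs weight of the event of the first replica. -/
theorem thermal_two {J : Type} [Fintype J] (hF : C11 F D B L) {p q : J → (ι → ℝ) → ℝ}
    (hp : ∀ j, EG (p j)) (hp0 : ∀ j y, 0 ≤ p j y) (hp1 : ∀ y, ∑ j, p j y = 1)
    (hq : ∀ j, EG (q j)) (hx : 0 < x) {G : J → (ι → ℝ) → ℝ} {D' : J → ι → (ι → ℝ) → ℝ}
    {B' L' : J → ℝ} (hG : ∀ j, C11 (G j) (D' j) (B' j) (L' j)) (hGc : ∀ j, Cv (G j))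
    (hGF : ∀ j y, G j y ≤ F y) (hqG : ∀ j y, Real.exp (x * F y) * q j y ≤ Real.exp (x * G j y))
    {v : J → ι → ℝ} (hv : ∀ j e, e ∉ A0 → v j e = 0) {c0 V : ℝ} (hc0 : 0 ≤ c0)
    (hD : ∀ j y, c0 ≤ ∑ e, v j e * D' j e y) (hV : ∀ j, ∑ e, v j e ^ 2 ≤ V) (hV0 : 0 < V)
    (hs : s ∈ Set.Icc (0 : ℝ) 1) (hs1 : s < 1)
    (hn : ∀ e, e ∉ A0 → a e ^ 2 + b e ^ 2 + c e ^ 2 = 1) :
    ∫ w, zd A0 a b c x F s w * ∑ j, cm A0 a b c x F (p j) s w * cm A0 a b c x F (q j) s w
        ∂(gI (ι ⊕ ι)) ≤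
      Real.exp (x * W (2 * x) 1 F 0 - x ^ 2 / 2 * ((1 - s) * (c0 ^ 2 / V))) := by
  set K := Real.exp (-(x ^ 2 / 2 * ((1 - s) * (c0 ^ 2 / V)))) with hK
  have hK0 : 0 < K := Real.exp_pos _
  have eZ2 : EG fun w => zd A0 a b c (2 * x) F s w := eg_P (hF.eg_exp (2 * x)) hs
  have key : ∀ w, zd A0 a b c x F s w *
      ∑ j, cm A0 a b c x F (p j) s w * cm A0 a b c x F (q j) s w ≤
      K * √(zd A0 a b c (2 * x) F s w) := by
    intro w
    have h1 : ∀ j, zd A0 a b c x F s w * cm A0 a b c x F (q j) s w ≤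
        K * √(zd A0 a b c (2 * x) F s w) := by
      intro j
      rw [zd_cm hF]
      exact thermal_pos hF (hG j) (hGc j) (hGF j) hx ((hF.eg_exp x).mul (hq j)) (hqG j) (hv j)
        hc0 (hD j) (hV j) hV0 hs1 w
    have h2 : ∀ j, 0 ≤ cm A0 a b c x F (p j) s w := fun j =>
      cm_nonneg hF (hp j) (hp0 j) s w
    have h3 : ∑ j, cm A0 a b c x F (p j) s w = 1 := by
      rw [← cm_sum Finset.univ hF (fun j _ => hp j)]
      have : (fun y => ∑ j, p j y) = fun _ => (1 : ℝ) := funext hp1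
      rw [this, cm_const hF]
    calc zd A0 a b c x F s w * ∑ j, cm A0 a b c x F (p j) s w * cm A0 a b c x F (q j) s w
        = ∑ j, cm A0 a b c x F (p j) s w *
            (zd A0 a b c x F s w * cm A0 a b c x F (q j) s w) := by
          rw [Finset.mul_sum]
          exact Finset.sum_congr rfl fun j _ => by ring
      _ ≤ ∑ j, cm A0 a b c x F (p j) s w * (K * √(zd A0 a b c (2 * x) F s w)) :=
          Finset.sum_le_sum fun j _ => mul_le_mul_of_nonneg_left (h1 j) (h2 j)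
      _ = K * √(zd A0 a b c (2 * x) F s w) := by rw [← Finset.sum_mul, h3, one_mul]
  have i2 : Integrable (fun w => K * √(zd A0 a b c (2 * x) F s w)) (gI (ι ⊕ ι)) :=
    (eg_sqrt eZ2).integrable.const_mul K
  by_cases hint : Integrable (fun w => zd A0 a b c x F s w *
      ∑ j, cm A0 a b c x F (p j) s w * cm A0 a b c x F (q j) s w) (gI (ι ⊕ ι))
  · refine (integral_mono hint i2 key).trans ?_
    rw [integral_const_mul, sub_eq_neg_add, Real.exp_add]
    exact mul_le_mul_of_nonneg_left (int_sqrt_zd hF hx hs hn) hK0.le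
  · rw [integral_undef hint]
    exact (Real.exp_pos _).le

end Vale.Agent.P146.H281
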