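import Vale.Agent.P146.H118.Rank
import Vale.Agent.P146.H281.TailP

/-!
Moments given the position, block form: all moments of the squared gradient from its exponential
moment; the fourth moment of the overlap of two replicas from rank one on the bond block.
-/

open MeasureTheory ProbabilityTheory Filter Topology

namespace Vale.Agent.P146.H281

open Vale.Agent.P157.Lv Vale.Agent.P146.H425 Vale.Agent.P146.H332 Vale.Agent.P146.H118

set_option linter.unusedSectionVars false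

lemma pow_le_exp {X M : ℝ} (hX : 0 ≤ X) (hM : 0 ≤ M) (p : ℕ) :
    X ^ p ≤ 2 ^ (p - 1) * (M ^ p + p.factorial * Real.exp (X - M)) := by
  have hf : (0 : ℝ) < p.factorial := by exact_mod_cast p.factorial_pos
  have h2 : (1 : ℝ) ≤ 2 ^ (p - 1) := one_le_pow₀ (by norm_num)
  rcases le_total X M with h | h
  · have h1 : X ^ p ≤ M ^ p := pow_le_pow_left₀ hX h p
    have h3 : 0 ≤ M ^ p := pow_nonneg hM p
    have h4 : 0 ≤ (p.factorial : ℝ) * Real.exp (X - M) := by positivity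
    calc X ^ p ≤ 1 * (M ^ p + p.factorial * Real.exp (X - M)) := by linarith
      _ ≤ _ := mul_le_mul_of_nonneg_right h2 (by linarith)
  · have h0 : 0 ≤ X - M := by linarith
    have h1 := add_pow_le hM h0 p
    have e : M + (X - M) = X := by ring
    rw [e] at h1
    refine h1.trans (mul_le_mul_of_nonneg_left ?_ (by positivity))
    have h3 := Real.pow_div_factorial_le_exp (X - M) h0 p
    rw [div_le_iff₀ hf] at h3
    linarith

variable {ι : Type} [Fintype ι] [DecidableEq ι]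
variable {A0 : Finset ι} {a b c : ι → ℝ} {x s : ℝ} {F : (ι → ℝ) → ℝ} {D : ι → (ι → ℝ) → ℝ}
  {B L M : ℝ} {H T : ι → ι → (ι → ℝ) → ℝ}

/-- the normalisation -/
lemma int_zd (h : C11 F D B L) (hx : 0 < x) (hs : s ∈ Set.Icc (0 : ℝ) 1)
    (hn : ∀ e, e ∉ A0 → a e ^ 2 + b e ^ 2 + c e ^ 2 = 1) :
    ∫ w, zd A0 a b c x F s w ∂(gI (ι ⊕ ι)) = Real.exp (x * W x 1 F 0) := by
  unfold zd
  rw [int_P (h.eg_exp x) hs hn, h.lip.exp_W h.B0 hx]
  simp only [zero_add, one_smul]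

/-- the squared gradient in all directions, weighted by the noise -/
noncomputable def X2 (A0 : Finset ι) (a b c : ι → ℝ) (x : ℝ) (F : (ι → ℝ) → ℝ)
    (D : ι → (ι → ℝ) → ℝ) (s : ℝ) (w : ι ⊕ ι → ℝ) : ℝ :=
  x ^ 2 / 2 * ∑ e, gc A0 c s e ^ 2 * cm A0 a b c x F (D e) s w ^ 2

lemma X2_nonneg (s : ℝ) (w : ι ⊕ ι → ℝ) : 0 ≤ X2 A0 a b c x F D s w := by
  unfold X2
  positivity

lemma eg_cm (h : C11 F D B L) {φ : (ι → ℝ) → ℝ} (hφ : EG φ) {C : ℝ} (hC : ∀ y, |φ y| ≤ C)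
    (hs : s ∈ Set.Icc (0 : ℝ) 1) : EG fun w => cm A0 a b c x F φ s w := by
  refine EG.of_bdd (C := C) ?_ fun w => abs_cm_le h hφ hC s w
  have h1 := (eg_P (A0 := A0) (a := a) (b := b) (c := c) ((h.eg_exp x).mul hφ) hs).meas
  have h2 := (eg_P (A0 := A0) (a := a) (b := b) (c := c) (h.eg_exp x) hs).meas
  exact h1.mul h2.inv

lemma eg_X2 (h : C11 F D B L) (hs : s ∈ Set.Icc (0 : ℝ) 1) :
    EG fun w => X2 A0 a b c x F D s w := by
  unfold X2
  exact (EG.sum _ fun e _ => ((eg_cm h (h.eg_D e) (h.bd e) hs).pow 2).const_mul _).const_mul _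

lemma X2_le (h : C11 F D B L) (s : ℝ) (w : ι ⊕ ι → ℝ) :
    X2 A0 a b c x F D s w ≤ x ^ 2 / 2 * ∑ e, gc A0 c s e ^ 2 * B ^ 2 := by
  unfold X2
  refine mul_le_mul_of_nonneg_left (Finset.sum_le_sum fun e _ => ?_) (by positivity)
  refine mul_le_mul_of_nonneg_left ?_ (sq_nonneg _)
  have h1 := abs_cm_le (A0 := A0) (a := a) (b := b) (c := c) (x := x) h (h.eg_D e) (h.bd e) s w
  rw [← sq_abs]
  exact pow_le_pow_left₀ (abs_nonneg _) h1 2

lemma int_exp_X2 (h : C11 F D B L) (hs : s ∈ Set.Icc (0 : ℝ) 1) :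
    Integrable (fun w => zd A0 a b c x F s w * Real.exp (X2 A0 a b c x F D s w))
      (gI (ι ⊕ ι)) := by
  have hz : EG fun w => zd A0 a b c x F s w := eg_P (h.eg_exp x) hs
  have he : EG fun w => Real.exp (X2 A0 a b c x F D s w) := by
    refine EG.of_bdd (C := Real.exp (x ^ 2 / 2 * ∑ e, gc A0 c s e ^ 2 * B ^ 2))
      (eg_X2 h hs).meas.exp fun w => ?_
    rw [abs_of_pos (Real.exp_pos _)]
    exact Real.exp_le_exp.2 (X2_le h s w)
  exact (hz.mul he).integrable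

/-- the entropy gain `Δ = x (W(2x) - W(x))` -/
noncomputable def Dl (x : ℝ) (F : (ι → ℝ) → ℝ) : ℝ := x * W (2 * x) 1 F 0 - x * W x 1 F 0

lemma Dl_nonneg (h : C11 F D B L) (hc : Cv F) (hx : 0 < x) : 0 ≤ Dl x F := by
  have h1 := W_two_ge (b := 1) h hc hx 0
  have h2 : 0 ≤ G2 x 1 F D 0 := Finset.sum_nonneg fun _ _ => sq_nonneg _
  unfold Dl
  nlinarith [mul_nonneg hx.le h2, mul_nonneg hx.le (mul_nonneg hx.le h2)]

/-- **All moments of the squared gradient given the position.** -/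
theorem mom_X2 (h : C11 F D B L) (hc : Cv F) (hx : 0 < x) (hs : s ∈ Set.Icc (0 : ℝ) 1)
    (hn : ∀ e, e ∉ A0 → a e ^ 2 + b e ^ 2 + c e ^ 2 = 1) (p : ℕ) :
    ∫ w, zd A0 a b c x F s w * X2 A0 a b c x F D s w ^ p ∂(gI (ι ⊕ ι)) ≤
      2 ^ (p - 1) * (Dl x F ^ p + p.factorial) * Real.exp (x * W x 1 F 0) := by
  have hz : EG fun w => zd A0 a b c x F s w := eg_P (h.eg_exp x) hs
  have hD := Dl_nonneg h hc hx
  have i1 : Integrable (fun w => zd A0 a b c x F s w * X2 A0 a b c x F D s w ^ p)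
      (gI (ι ⊕ ι)) := (hz.mul ((eg_X2 h hs).pow p)).integrable
  have i2 := int_exp_X2 (A0 := A0) (a := a) (b := b) (c := c) (x := x) h hs
  have key : ∀ w, zd A0 a b c x F s w * X2 A0 a b c x F D s w ^ p ≤
      2 ^ (p - 1) * Dl x F ^ p * zd A0 a b c x F s w +
        2 ^ (p - 1) * (p.factorial * Real.exp (-Dl x F)) *
          (zd A0 a b c x F s w * Real.exp (X2 A0 a b c x F D s w)) := by
    intro w
    have h1 := pow_le_exp (X2_nonneg (A0 := A0) (a := a) (b := b) (c := c) (x := x) (F := F)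
      (D := D) s w) hD p
    have h2 := mul_le_mul_of_nonneg_left h1
      (zd_pos (A0 := A0) (a := a) (b := b) (c := c) h x s w).le
    refine h2.trans (le_of_eq ?_)
    rw [sub_eq_add_neg, Real.exp_add]
    ring
  have j1 := hz.integrable.const_mul (2 ^ (p - 1) * Dl x F ^ p)
  have j2 := i2.const_mul (2 ^ (p - 1) * (p.factorial * Real.exp (-Dl x F)))
  have hm : ∫ w, zd A0 a b c x F s w * X2 A0 a b c x F D s w ^ p ∂(gI (ι ⊕ ι)) ≤
      ∫ w, (2 ^ (p - 1) * Dl x F ^ p * zd A0 a b c x F s w +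
        2 ^ (p - 1) * (p.factorial * Real.exp (-Dl x F)) *
          (zd A0 a b c x F s w * Real.exp (X2 A0 a b c x F D s w))) ∂(gI (ι ⊕ ι)) :=
    integral_mono i1 (j1.add j2) key
  refine hm.trans ?_
  rw [integral_add j1 j2, integral_const_mul, integral_const_mul, int_zd h hx hs hn]
  have h3 := exp_grad (A0 := A0) (a := a) (b := b) (c := c) h hc hx hs hn
  have h4 : 2 ^ (p - 1) * ((p.factorial : ℝ) * Real.exp (-Dl x F)) *
      ∫ w, zd A0 a b c x F s w * Real.exp (X2 A0 a b c x F D s w) ∂(gI (ι ⊕ ι)) ≤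
      2 ^ (p - 1) * ((p.factorial : ℝ) * Real.exp (-Dl x F)) *
        Real.exp (x * W (2 * x) 1 F 0) := mul_le_mul_of_nonneg_left h3 (by positivity)
  have e1 : Real.exp (-Dl x F) * Real.exp (x * W (2 * x) 1 F 0) = Real.exp (x * W x 1 F 0) := by
    rw [← Real.exp_add]
    congr 1
    unfold Dl
    ring
  have e2 : 2 ^ (p - 1) * ((p.factorial : ℝ) * Real.exp (-Dl x F)) *
        Real.exp (x * W (2 * x) 1 F 0) =
      2 ^ (p - 1) * (p.factorial : ℝ) * Real.exp (x * W x 1 F 0) := by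
    rw [← e1]; ring
  rw [e2] at h4
  refine (add_le_add_right h4 _).trans (le_of_eq ?_)
  ring

/-- the squared gradient in the active directions -/
noncomputable def S2 (A0 : Finset ι) (a b c : ι → ℝ) (x : ℝ) (F : (ι → ℝ) → ℝ)
    (D : ι → (ι → ℝ) → ℝ) (s : ℝ) (w : ι ⊕ ι → ℝ) : ℝ :=
  ∑ e ∈ A0, cm A0 a b c x F (D e) s w ^ 2

lemma S2_nonneg (s : ℝ) (w : ι ⊕ ι → ℝ) : 0 ≤ S2 A0 a b c x F D s w :=
  Finset.sum_nonneg fun _ _ => sq_nonneg _

lemma eg_S2 (h : C11 F D B L) (hs : s ∈ Set.Icc (0 : ℝ) 1) :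
    EG fun w => S2 A0 a b c x F D s w :=
  EG.sum _ fun e _ => (eg_cm h (h.eg_D e) (h.bd e) hs).pow 2

lemma S2_le_X2 (hx : 0 < x) (hs1 : s < 1) (w : ι ⊕ ι → ℝ) :
    S2 A0 a b c x F D s w ≤ 2 / (x ^ 2 * (1 - s)) * X2 A0 a b c x F D s w := by
  have h1s : 0 < 1 - s := by linarith
  have hx2 : 0 < x ^ 2 := by positivity
  have h1 : (1 - s) * S2 A0 a b c x F D s w ≤
      ∑ e, gc A0 c s e ^ 2 * cm A0 a b c x F (D e) s w ^ 2 := by
    unfold S2
    rw [Finset.mul_sum]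
    calc ∑ e ∈ A0, (1 - s) * cm A0 a b c x F (D e) s w ^ 2
        = ∑ e ∈ A0, gc A0 c s e ^ 2 * cm A0 a b c x F (D e) s w ^ 2 := by
          refine Finset.sum_congr rfl fun e he => ?_
          unfold gc
          rw [if_pos he, Real.sq_sqrt h1s.le]
      _ ≤ _ := Finset.sum_le_sum_of_subset_of_nonneg (Finset.subset_univ A0)
          fun e _ _ => by positivity
  unfold X2
  rw [div_mul_eq_mul_div, le_div_iff₀ (by positivity)]
  calc S2 A0 a b c x F D s w * (x ^ 2 * (1 - s)) = x ^ 2 * ((1 - s) * S2 A0 a b c x F D s w) := by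
        ring
    _ ≤ x ^ 2 * ∑ e, gc A0 c s e ^ 2 * cm A0 a b c x F (D e) s w ^ 2 :=
        mul_le_mul_of_nonneg_left h1 hx2.le
    _ = _ := by ring

/-- **All moments of the squared gradient in the active directions.** -/
theorem mom_S2 (h : C11 F D B L) (hc : Cv F) (hx : 0 < x) (hs : s ∈ Set.Icc (0 : ℝ) 1)
    (hs1 : s < 1) (hn : ∀ e, e ∉ A0 → a e ^ 2 + b e ^ 2 + c e ^ 2 = 1) (p : ℕ) :
    ∫ w, zd A0 a b c x F s w * S2 A0 a b c x F D s w ^ p ∂(gI (ι ⊕ ι)) ≤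
      (2 / (x ^ 2 * (1 - s))) ^ p * (2 ^ (p - 1) * (Dl x F ^ p + p.factorial)) *
        Real.exp (x * W x 1 F 0) := by
  have h1s : 0 < 1 - s := by linarith
  have hz : EG fun w => zd A0 a b c x F s w := eg_P (h.eg_exp x) hs
  have i1 : Integrable (fun w => zd A0 a b c x F s w * S2 A0 a b c x F D s w ^ p)
      (gI (ι ⊕ ι)) := (hz.mul ((eg_S2 h hs).pow p)).integrable
  have i2 : Integrable (fun w => zd A0 a b c x F s w * X2 A0 a b c x F D s w ^ p)
      (gI (ι ⊕ ι)) := (hz.mul ((eg_X2 h hs).pow p)).integrable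
  have h0 := mom_X2 (A0 := A0) (a := a) (b := b) (c := c) h hc hx hs hn p
  calc ∫ w, zd A0 a b c x F s w * S2 A0 a b c x F D s w ^ p ∂(gI (ι ⊕ ι))
      ≤ ∫ w, (2 / (x ^ 2 * (1 - s))) ^ p *
          (zd A0 a b c x F s w * X2 A0 a b c x F D s w ^ p) ∂(gI (ι ⊕ ι)) := by
        refine integral_mono i1 (i2.const_mul _) fun w => ?_
        have h2 := pow_le_pow_left₀ (S2_nonneg (A0 := A0) (a := a) (b := b) (c := c) (x := x)
          (F := F) (D := D) s w) (S2_le_X2 hx hs1 w) p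
        rw [mul_pow] at h2
        have h3 := mul_le_mul_of_nonneg_left h2
          (zd_pos (A0 := A0) (a := a) (b := b) (c := c) h x s w).le
        refine h3.trans (le_of_eq ?_)
        ring
    _ = (2 / (x ^ 2 * (1 - s))) ^ p *
          ∫ w, zd A0 a b c x F s w * X2 A0 a b c x F D s w ^ p ∂(gI (ι ⊕ ι)) :=
        integral_const_mul _ _
    _ ≤ (2 / (x ^ 2 * (1 - s))) ^ p *
          (2 ^ (p - 1) * (Dl x F ^ p + p.factorial) * Real.exp (x * W x 1 F 0)) :=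
        mul_le_mul_of_nonneg_left h0 (by positivity)
    _ = _ := by ring

/-! ### the fourth moment -/

/-- the sum of the squares of the conditional second moments of the slopes -/
noncomputable def S4 (A0 : Finset ι) (a b c : ι → ℝ) (x : ℝ) (F : (ι → ℝ) → ℝ)
    (D : ι → (ι → ℝ) → ℝ) (H : ι → ι → (ι → ℝ) → ℝ) (s : ℝ) (w : ι ⊕ ι → ℝ) : ℝ :=
  ∑ k ∈ A0, ∑ e ∈ A0, cm A0 a b c x F (sm D H k e) s w ^ 2

lemma S4_nonneg (s : ℝ) (w : ι ⊕ ι → ℝ) : 0 ≤ S4 A0 a b c x F D H s w :=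
  Finset.sum_nonneg fun _ _ => Finset.sum_nonneg fun _ _ => sq_nonneg _

/-- pointwise in the position -/
theorem S4_le (s : ℝ) (w : ι ⊕ ι → ℝ) :
    S4 A0 a b c x F D H s w ≤ 2 * S2 A0 a b c x F D s w ^ 2 +
      2 * ∑ k ∈ A0, ∑ e ∈ A0, kt A0 a b c x F D H k e s w ^ 2 := by
  have h := (abs_le.1 (second_moment_cm A0 a b c x F D H s w (θ := 1) one_pos)).2
  unfold S4 S2
  have e : (1 + 1 / (1 : ℝ)) = 2 := by norm_num
  rw [e, one_mul] at h
  linarith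

/-- the two sided comparison with a parameter -/
theorem S4_sub (s : ℝ) (w : ι ⊕ ι → ℝ) {θ : ℝ} (hθ : 0 < θ) :
    |S4 A0 a b c x F D H s w - S2 A0 a b c x F D s w ^ 2| ≤
      (1 + 1 / θ) * ∑ k ∈ A0, ∑ e ∈ A0, kt A0 a b c x F D H k e s w ^ 2 +
        θ * S2 A0 a b c x F D s w ^ 2 := second_moment_cm A0 a b c x F D H s w hθ

lemma ge_S4 (h : R1.Sm F D B L H T M) (hx : 0 ≤ x) (A0 : Finset ι) (a b c : ι → ℝ) :
    GE (S4 A0 a b c x F D H) :=
  GE.sum A0 fun k _ => GE.sum A0 fun e _ =>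
    (ge_cm h.c11 h.cF hx (eg_sm h k e) (cont_sm h k e) A0 a b c).pow 2

lemma ge_S2 (h : R1.Sm F D B L H T M) (hx : 0 ≤ x) (A0 : Finset ι) (a b c : ι → ℝ) :
    GE (S2 A0 a b c x F D) :=
  GE.sum A0 fun e _ => (ge_cm h.c11 h.cF hx (h.eD e) (h.cF.c1 e) A0 a b c).pow 2

/-- **The fourth moment at the share `s`**: with a weight `0 ≤ Y`. -/
theorem fourth_Y (h : R1.Sm F D B L H T M) (hx : 0 ≤ x) {Y : (ι ⊕ ι → ℝ) → ℝ} (hY : EG Y)
    (hY0 : ∀ w, 0 ≤ Y w) (hs : s ∈ Set.Icc (0 : ℝ) 1) :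
    ∫ w, zd A0 a b c x F s w * (Y w * S4 A0 a b c x F D H s w) ∂(gI (ι ⊕ ι)) ≤
      2 * (∫ w, zd A0 a b c x F s w * (Y w * S2 A0 a b c x F D s w ^ 2) ∂(gI (ι ⊕ ι))) +
        2 * Kq A0 a b c x F D H Y s := by
  have g0 := (den_zd h.c11 h.cF hx A0 a b c).kf.gf
  have i4 := ((g0.mul ((GE.of_eg hY).mul (ge_S4 h hx A0 a b c))).eg hs).integrable
  have i2 := ((g0.mul ((GE.of_eg hY).mul ((ge_S2 h hx A0 a b c).pow 2))).eg hs).integrable
  have ik := ((g0.mul ((GE.of_eg hY).mul (GE.sum A0 fun k _ =>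
    GE.sum A0 fun e _ => (ge_kt h hx A0 a b c k e).pow 2))).eg hs).integrable
  unfold Kq
  rw [← integral_const_mul, ← integral_const_mul, ← integral_add (i2.const_mul 2)
    (ik.const_mul 2)]
  refine integral_mono i4 ((i2.const_mul 2).add (ik.const_mul 2)) fun w => ?_
  have h1 := S4_le (A0 := A0) (a := a) (b := b) (c := c) (x := x) (F := F) (D := D) (H := H) s w
  have h2 : 0 ≤ zd A0 a b c x F s w * Y w := mul_nonneg (zd_pos h.c11 x s w).le (hY0 w)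
  have h3 := mul_le_mul_of_nonneg_left h1 h2
  show zd A0 a b c x F s w * (Y w * S4 A0 a b c x F D H s w) ≤
    2 * (zd A0 a b c x F s w * (Y w * S2 A0 a b c x F D s w ^ 2)) +
      2 * (zd A0 a b c x F s w * (Y w * ∑ k ∈ A0, ∑ e ∈ A0, kt A0 a b c x F D H k e s w ^ 2))
  calc zd A0 a b c x F s w * (Y w * S4 A0 a b c x F D H s w)
      = zd A0 a b c x F s w * Y w * S4 A0 a b c x F D H s w := by ring
    _ ≤ _ := h3
    _ = _ := by ring

lemma int_kt_nonneg (h : C11 F D B L) {Y : (ι ⊕ ι → ℝ) → ℝ} (hY0 : ∀ w, 0 ≤ Y w) (s : ℝ) :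
    0 ≤ Kq A0 a b c x F D H Y s :=
  integral_nonneg fun w => mul_nonneg (zd_pos h x s w).le (mul_nonneg (hY0 w)
    (Finset.sum_nonneg fun _ _ => Finset.sum_nonneg fun _ _ => sq_nonneg _))

/-- **The fourth moment, integrated over a window of shares.** -/
theorem fourth_window (h : R1.Sm F D B L H T M) (hc : Cv F) (hx : 0 < x) (hx1 : x ≤ 1)
    (hn : ∀ e, e ∉ A0 → a e ^ 2 + b e ^ 2 + c e ^ 2 = 1)
    {s0 s1 : ℝ} (h0 : 0 ≤ s0) (h01 : s0 ≤ s1) (h1 : s1 < 1) :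
    ∫ s in s0..s1, (∫ w, zd A0 a b c x F s w * S4 A0 a b c x F D H s w ∂(gI (ι ⊕ ι))) ≤
      (s1 - s0) * (2 * ((2 / (x ^ 2 * (1 - s1))) ^ 2 * (2 * (Dl x F ^ 2 + 2)) *
        Real.exp (x * W x 1 F 0))) +
      2 / x ^ 2 * QqF A0 a b c x F D (fun _ => 1) s1 := by
  have h1' : s1 ≤ 1 := h1.le
  have hsub : Set.uIcc s0 s1 ⊆ Set.Icc (0 : ℝ) 1 := by
    rw [Set.uIcc_of_le h01]
    exact Set.Icc_subset_Icc h0 h1'
  have g0 := (den_zd h.c11 h.cF hx.le A0 a b c).kf.gf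
  have c4 : ContinuousOn (fun s => ∫ w, zd A0 a b c x F s w * S4 A0 a b c x F D H s w
      ∂(gI (ι ⊕ ι))) (Set.Icc 0 1) := (g0.mul (ge_S4 h hx.le A0 a b c)).continuousOn
  have ck := cont_Kq h hx.le A0 a b c (Y := fun _ => 1) (EG.const 1)
  set K2 := 2 * ((2 / (x ^ 2 * (1 - s1))) ^ 2 * (2 * (Dl x F ^ 2 + 2)) *
        Real.exp (x * W x 1 F 0)) with hK2
  have hpt : ∀ s ∈ Set.Icc s0 s1, ∫ w, zd A0 a b c x F s w * S4 A0 a b c x F D H s w
      ∂(gI (ι ⊕ ι)) ≤ K2 + 2 * Kq A0 a b c x F D H (fun _ => 1) s := by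
    intro s hsI
    have hs : s ∈ Set.Icc (0 : ℝ) 1 := ⟨h0.trans hsI.1, hsI.2.trans h1'⟩
    have hs1 : s < 1 := lt_of_le_of_lt hsI.2 h1
    have h2 := fourth_Y (A0 := A0) (a := a) (b := b) (c := c) (Y := fun _ => 1) h hx.le
      (EG.const 1) (fun _ => zero_le_one) hs
    simp only [one_mul] at h2
    have h3 := mom_S2 (A0 := A0) (a := a) (b := b) (c := c) h.c11 hc hx hs hs1 hn 2
    have h4 : (2 / (x ^ 2 * (1 - s))) ^ 2 ≤ (2 / (x ^ 2 * (1 - s1))) ^ 2 := by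
      have : 0 < 1 - s1 := by linarith
      have : 0 < 1 - s := by linarith
      gcongr
      exact hsI.2
    have h5 : (2 / (x ^ 2 * (1 - s))) ^ 2 * (2 ^ (2 - 1) * (Dl x F ^ 2 + (2 : ℕ).factorial)) *
        Real.exp (x * W x 1 F 0) ≤ (2 / (x ^ 2 * (1 - s1))) ^ 2 *
          (2 * (Dl x F ^ 2 + 2)) * Real.exp (x * W x 1 F 0) := by
      have e : (2 : ℝ) ^ (2 - 1) * (Dl x F ^ 2 + (2 : ℕ).factorial) =
          2 * (Dl x F ^ 2 + 2) := by norm_num [Nat.factorial]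
      rw [e]
      gcongr
    have h6 := h3.trans h5
    rw [hK2]
    linarith
  have i1 : IntervalIntegrable (fun _ : ℝ => K2) volume s0 s1 := intervalIntegrable_const
  have i2 : IntervalIntegrable (fun s => 2 * Kq A0 a b c x F D H (fun _ => 1) s) volume s0 s1 :=
    ((ck.mono hsub).intervalIntegrable).const_mul 2
  have hm : ∫ s in s0..s1, (∫ w, zd A0 a b c x F s w * S4 A0 a b c x F D H s w
      ∂(gI (ι ⊕ ι))) ≤ ∫ s in s0..s1, (K2 + 2 * Kq A0 a b c x F D H (fun _ => 1) s) :=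
    intervalIntegral.integral_mono_on h01 ((c4.mono hsub).intervalIntegrable (μ := volume))
      (i1.add i2) hpt
  refine hm.trans ?_
  rw [intervalIntegral.integral_add i1 i2, intervalIntegral.integral_const, smul_eq_mul,
    intervalIntegral.integral_const_mul]
  have h7 := window_kt (A0 := A0) h (ps_of_cv h hc A0) hx.le hx1 a b c (Y := fun _ => 1)
    (EG.const 1) (fun _ => zero_le_one) (fun _ _ _ _ => rfl) h0 h01 h1'
  have h8 := Qq_nonneg (A0 := A0) (a := a) (b := b) (c := c) (x := x) (Y := fun _ => 1) h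
    (fun _ => zero_le_one) s0
  have hx2 : 0 < x ^ 2 := by positivity
  have h9 : 2 * ∫ s in s0..s1, Kq A0 a b c x F D H (fun _ => 1) s ≤
      2 / x ^ 2 * QqF A0 a b c x F D (fun _ => 1) s1 := by
    rw [div_mul_eq_mul_div, le_div_iff₀ hx2]
    nlinarith
  linarith

end Vale.Agent.P146.H281
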