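import Vale.Agent.P146.H122.S3a
import Vale.Agent.P146.H529.Par2

/-!
# P146: LINK, eventually in the size and the unit of the exponents

Port of `H529.link_err2`, `H178.link_err3`, `H529.linkUp_ParV`, `H529.linkDn_ParV`,
`H529.parV_two`, `H529.linkUp_two`, `H529.linkDn_two` to `EV`. Every step is a statement at one
size `n` (`link_err2_n`, `link_err3_n`, `parV_two_n`, `linkUp_n`, `linkDn_n`).
-/

open MeasureTheory ProbabilityTheory Filter Topology Set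

namespace Vale.Agent.P146.S3

open Vale.Agent.P157.Lv Vale.Agent.P146 Vale.Agent.P146.H425 Vale.Agent.P146.H325
  Vale.Agent.P146.H332 Vale.Agent.P146.H196 Vale.Agent.P146.H475 Vale.Agent.P146.H9
  Vale.Agent.P146.H347 Vale.Agent.P146.H877 Vale.Agent.P146.H529

set_option linter.unusedSectionVars false
set_option linter.unusedVariables false

section one

variable {n : ℕ} {b e g ch ce k x w A : ℝ}

/-- the error of LINK at one size -/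
theorem link_err2_n (hn : 1 ≤ n) (hb : 0 < b)
    (hn1 : 120 * 64 * (1 + Real.log n) ≤ (n : ℝ) ^ (6 * e - (ch + g)))
    (hn2 : 120 / b ≤ (n : ℝ) ^ (k + ce - (g + ch))) :
    ∀ y s η A : ℝ, (n : ℝ) ^ (-(1 / 6) + e) ≤ 2 * y → y ≤ 1 →
      0 ≤ η → η ≤ (n : ℝ) ^ (-ce) → 0 ≤ A → s ^ 2 * A ≤ (n : ℝ) ^ (-k) * y ^ 5 →
      60 / (n : ℝ) ^ (-ch) * (1 + Real.log n + n * y * s ^ 2 * η * A / b) ≤
        (n : ℝ) ^ (1 - g) * y ^ 6 := by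
  intro y s η A hy hy1 hη0 hη hA0 hA
  have hN1 : (1 : ℝ) ≤ n := by exact_mod_cast hn
  have hN : (0 : ℝ) < n := by linarith
  set N : ℝ := (n : ℝ) with hNN
  have hy0 : 0 < y := by
    have : 0 < N ^ (-(1 / 6) + e) := Real.rpow_pos_of_pos hN _
    linarith
  have e0 : 60 / N ^ (-ch) = 60 * N ^ ch := by
    rw [Real.rpow_neg hN.le]
    field_simp
  rw [e0]
  -- first part
  have hy6 : N ^ (6 * e) / 64 ≤ N * y ^ 6 := by
    have h3 : (N ^ (-(1 / 6) + e)) ^ 6 ≤ (2 * y) ^ 6 :=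
      pow_le_pow_left₀ (Real.rpow_nonneg hN.le _) hy 6
    have h4 : (N ^ (-(1 / 6) + e)) ^ 6 = N ^ (-1 + 6 * e) := by
      rw [← Real.rpow_natCast, ← Real.rpow_mul hN.le]
      congr 1
      push_cast
      ring
    rw [h4] at h3
    have h5 : N * N ^ (-1 + 6 * e) = N ^ (6 * e) := by
      nth_rewrite 1 [← Real.rpow_one N]
      rw [← Real.rpow_add hN]
      congr 1
      ring
    have h6 := mul_le_mul_of_nonneg_left h3 hN.le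
    rw [h5] at h6
    have e1 : (2 * y) ^ 6 = 64 * y ^ 6 := by ring
    rw [e1] at h6
    linarith
  have p1 : 60 * N ^ ch * (1 + Real.log N) ≤ N ^ (1 - g) * y ^ 6 / 2 := by
    have h3 : 120 * 64 * (1 + Real.log N) ≤ N ^ (6 * e - (ch + g)) := hn1
    have h4 : N ^ (6 * e - (ch + g)) = N ^ (6 * e) * (N ^ (-ch) * N ^ (-g)) := by
      rw [← Real.rpow_add hN, ← Real.rpow_add hN]
      congr 1
      ring
    have h5 : N ^ ch * N ^ (-ch) = 1 := by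
      rw [← Real.rpow_add hN]
      simp
    have h6 : N ^ (1 - g) = N * N ^ (-g) := by
      rw [sub_eq_add_neg, Real.rpow_add hN, Real.rpow_one]
    have hg0 : 0 < N ^ (-g) := Real.rpow_pos_of_pos hN _
    have hc0 : 0 < N ^ ch := Real.rpow_pos_of_pos hN _
    have h7 : 120 * 64 * (1 + Real.log N) * N ^ ch ≤ N ^ (6 * e) * N ^ (-g) := by
      calc 120 * 64 * (1 + Real.log N) * N ^ ch ≤ N ^ (6 * e - (ch + g)) * N ^ ch :=
            mul_le_mul_of_nonneg_right h3 hc0.le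
        _ = N ^ (6 * e) * N ^ (-g) * (N ^ ch * N ^ (-ch)) := by rw [h4]; ring
        _ = N ^ (6 * e) * N ^ (-g) := by rw [h5, mul_one]
    have h8 := mul_le_mul_of_nonneg_right hy6 hg0.le
    rw [h6]
    nlinarith
  -- second part
  have p2 : 60 * N ^ ch * (N * y * s ^ 2 * η * A / b) ≤ N ^ (1 - g) * y ^ 6 / 2 := by
    have h3 : N * y * s ^ 2 * η * A ≤ N * y * N ^ (-ce) * (N ^ (-k) * y ^ 5) := by
      calc N * y * s ^ 2 * η * A = N * y * η * (s ^ 2 * A) := by ring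
        _ ≤ N * y * N ^ (-ce) * (N ^ (-k) * y ^ 5) := by gcongr
    have h4 : 120 / b ≤ N ^ (k + ce - (g + ch)) := hn2
    have hk0 : 0 < N ^ (g + ch - k - ce) := Real.rpow_pos_of_pos hN _
    have h5 : N ^ (k + ce - (g + ch)) * N ^ (g + ch - k - ce) = 1 := by
      rw [← Real.rpow_add hN]
      have : k + ce - (g + ch) + (g + ch - k - ce) = 0 := by ring
      rw [this, Real.rpow_zero]
    have h6 : 120 / b * N ^ (g + ch - k - ce) ≤ 1 := by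
      calc 120 / b * N ^ (g + ch - k - ce)
          ≤ N ^ (k + ce - (g + ch)) * N ^ (g + ch - k - ce) :=
            mul_le_mul_of_nonneg_right h4 hk0.le
        _ = 1 := h5
    have h7 : N ^ ch * (N * y * N ^ (-ce) * (N ^ (-k) * y ^ 5)) =
        N ^ (1 - g) * N ^ (g + ch - k - ce) * y ^ 6 := by
      have e1 : N ^ (1 - g) * N ^ (g + ch - k - ce) = N ^ ch * N * N ^ (-ce) * N ^ (-k) := by
        rw [← Real.rpow_add hN]
        nth_rewrite 3 [← Real.rpow_one N]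
        rw [← Real.rpow_add hN, ← Real.rpow_add hN, ← Real.rpow_add hN]
        congr 1
        ring
      rw [e1]
      ring
    have hch : 0 < N ^ ch := Real.rpow_pos_of_pos hN _
    have hg1 : 0 < N ^ (1 - g) := Real.rpow_pos_of_pos hN _
    calc 60 * N ^ ch * (N * y * s ^ 2 * η * A / b)
        = 60 / b * (N ^ ch * (N * y * s ^ 2 * η * A)) := by ring
      _ ≤ 60 / b * (N ^ ch * (N * y * N ^ (-ce) * (N ^ (-k) * y ^ 5))) := by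
          gcongr
      _ = (120 / b * N ^ (g + ch - k - ce)) * (N ^ (1 - g) * y ^ 6) / 2 := by
          rw [h7]
          ring
      _ ≤ 1 * (N ^ (1 - g) * y ^ 6) / 2 := by gcongr
      _ = N ^ (1 - g) * y ^ 6 / 2 := by ring
  calc 60 * N ^ ch * (1 + Real.log N + N * y * s ^ 2 * η * A / b)
      = 60 * N ^ ch * (1 + Real.log N) + 60 * N ^ ch * (N * y * s ^ 2 * η * A / b) := by ring
    _ ≤ N ^ (1 - g) * y ^ 6 / 2 + N ^ (1 - g) * y ^ 6 / 2 := add_le_add p1 p2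
    _ = _ := by ring

/-- the common error of the two links at one size -/
lemma link_err3_n {r : ℝ} (hn : 1 ≤ n) (hA : 1 ≤ A)
    (h1' : ∀ y s η A : ℝ, (n : ℝ) ^ (-(1 / 6) + (e - r)) ≤ 2 * y → y ≤ 1 →
      0 ≤ η → η ≤ (n : ℝ) ^ (-ce) → 0 ≤ A → s ^ 2 * A ≤ (n : ℝ) ^ (-(x - w - r)) * y ^ 5 →
      60 / (n : ℝ) ^ (-ch) * (1 + Real.log n + n * y * s ^ 2 * η * A / b) ≤
        (n : ℝ) ^ (1 - g) * y ^ 6)
    (h3 : max A 8 ≤ (n : ℝ) ^ r) :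
    ∀ y z s η : ℝ, (n : ℝ) ^ (-(1 / 6) + e) ≤ A * y → y ≤ 1 →
      0 ≤ z → z ≤ 2 * y → s ^ 2 ≤ (n : ℝ) ^ (-x) * z ^ 3 → 0 ≤ η → η ≤ (n : ℝ) ^ (-ce) →
      60 / (n : ℝ) ^ (-ch) * (1 + Real.log n + n * y * s ^ 2 * η * ((n : ℝ) ^ w * y ^ 2) / b) ≤
        (n : ℝ) ^ (1 - g) * y ^ 6 := by
  intro y z s η hy hy1 hz0 hz hs hη0 hη
  have hN1 : (1 : ℝ) ≤ n := by exact_mod_cast hn
  have hN : (0 : ℝ) < n := by linarith
  have hx0 : 0 < (n : ℝ) ^ (-(1 / 6) + e) := Real.rpow_pos_of_pos hN _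
  have hy0 : 0 < y := by
    by_contra h
    push Not at h
    have : A * y ≤ 0 := mul_nonpos_of_nonneg_of_nonpos (by linarith) h
    linarith
  refine h1' y s η _ ?_ hy1 hη0 hη (by positivity) ?_
  · have e1 : (n : ℝ) ^ (-(1 / 6) + e) = (n : ℝ) ^ (-(1 / 6) + (e - r)) * (n : ℝ) ^ r := by
      rw [← Real.rpow_add hN]
      congr 1
      ring
    have h4 : A ≤ (n : ℝ) ^ r := (le_max_left _ _).trans h3
    have h5 : (n : ℝ) ^ (-(1 / 6) + (e - r)) * (n : ℝ) ^ r ≤ (n : ℝ) ^ r * y := by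
      rw [← e1]
      exact hy.trans (mul_le_mul_of_nonneg_right h4 hy0.le)
    have h6 : (n : ℝ) ^ (-(1 / 6) + (e - r)) ≤ y := by
      rw [mul_comm] at h5
      exact le_of_mul_le_mul_left h5 (Real.rpow_pos_of_pos hN _)
    linarith
  · have h4 : (8 : ℝ) ≤ (n : ℝ) ^ r := (le_max_right _ _).trans h3
    have h5 : z ^ 3 ≤ (2 * y) ^ 3 := pow_le_pow_left₀ hz0 hz 3
    have h6 : s ^ 2 ≤ (n : ℝ) ^ (-x) * (2 * y) ^ 3 :=
      hs.trans (mul_le_mul_of_nonneg_left h5 (Real.rpow_pos_of_pos hN _).le)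
    have e2 : (n : ℝ) ^ (-(x - w - r)) = (n : ℝ) ^ r * ((n : ℝ) ^ (-x) * (n : ℝ) ^ w) := by
      rw [← Real.rpow_add hN, ← Real.rpow_add hN]
      congr 1
      ring
    rw [e2]
    have h7 : s ^ 2 * ((n : ℝ) ^ w * y ^ 2) ≤ (n : ℝ) ^ (-x) * (2 * y) ^ 3 * ((n : ℝ) ^ w * y ^ 2) :=
      mul_le_mul_of_nonneg_right h6 (by positivity)
    refine h7.trans ?_
    have e3 : (n : ℝ) ^ (-x) * (2 * y) ^ 3 * ((n : ℝ) ^ w * y ^ 2) =
        8 * ((n : ℝ) ^ (-x) * (n : ℝ) ^ w * y ^ 5) := by ring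
    have e4 : (n : ℝ) ^ r * ((n : ℝ) ^ (-x) * (n : ℝ) ^ w) * y ^ 5 =
        (n : ℝ) ^ r * ((n : ℝ) ^ (-x) * (n : ℝ) ^ w * y ^ 5) := by ring
    rw [e3, e4]
    exact mul_le_mul_of_nonneg_right h4 (by positivity)

/-- the second choice of the modulated field, with the cut, at one size -/
theorem parV_two_n {q d : ℝ} (hq : 0 < q) (hn : 1 ≤ n) (h0 : 1 ≤ A) : ∀ y V : ℝ,
    (n : ℝ) ^ (-(1 / 6) + e) ≤ A * y → y ≤ 1 / 32 → (n : ℝ) ^ (-d) * y ^ 3 ≤ A * V →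
    0 < sC q n y V ∧ sC q n y V ^ 2 ≤ (n : ℝ) ^ (-(80 * q)) * y ^ 3 ∧ sC q n y V ^ 2 ≤ V ∧
      1 ≤ lA q n y V ∧ 0 < hA q n y V ∧ hA q n y V ≤ (n : ℝ) ^ (-(2000 * q)) ∧
      1 ≤ lA q n y V * hA q n y V := by
  intro y V hy hy1 hV
  obtain ⟨hy0, hV0⟩ := box_pos hn h0 hy hV
  have hn1 : (1 : ℝ) ≤ n := by exact_mod_cast hn
  have hn0 : (0 : ℝ) < n := by linarith
  obtain ⟨p1, p2, p3, p4⟩ := rate_ok hq hn hy0 (by linarith) V
  have hx0 := Real.rpow_pos_of_pos hn0 (-(80 * q))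
  have hx1 : (n : ℝ) ^ (-(80 * q)) ≤ 1 :=
    Real.rpow_le_one_of_one_le_of_nonpos hn1 (by linarith)
  have hm : 0 < min V (y ^ 3) := lt_min hV0 (by positivity)
  refine ⟨Real.sqrt_pos.2 (by positivity), ?_, ?_, p1, p2, p3, p4⟩
  · rw [sC_sq q n hy0.le hV0.le]
    exact mul_le_mul_of_nonneg_left (min_le_right _ _) hx0.le
  · rw [sC_sq q n hy0.le hV0.le]
    calc (n : ℝ) ^ (-(80 * q)) * min V (y ^ 3) ≤ 1 * V :=
          mul_le_mul hx1 (min_le_left _ _) hm.le (by norm_num)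
      _ = V := one_mul V

end one

section links

variable {n : ℕ} {β e ch g w d k ce A : ℝ} {sF lF hF : ℕ → ℝ → ℝ → ℝ}

/-- **LINK, upper, at one size.** -/
theorem linkUp_n (hβ : 0 < β) (hn : 1 ≤ n) (hA : 1 ≤ A) (hch : 0 < ch)
    (g1 : ∀ y z s η : ℝ, (n : ℝ) ^ (-(1 / 6) + e) ≤ A * y → y ≤ 1 →
      0 ≤ z → z ≤ 2 * y → s ^ 2 ≤ (n : ℝ) ^ (-k) * z ^ 3 → 0 ≤ η → η ≤ (n : ℝ) ^ (-ce) →
      60 / (n : ℝ) ^ (-ch) * (1 + Real.log n + n * y * s ^ 2 * η * ((n : ℝ) ^ w * y ^ 2) / β) ≤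
        (n : ℝ) ^ (1 - g) * y ^ 6)
    (g2 : ∀ y V : ℝ, (n : ℝ) ^ (-(1 / 6) + e) ≤ 8 * A * y → y ≤ 1 / 32 →
      (n : ℝ) ^ (-d) * y ^ 3 ≤ 8 * A * V →
      0 < sF n y V ∧ sF n y V ^ 2 ≤ (n : ℝ) ^ (-k) * y ^ 3 ∧ sF n y V ^ 2 ≤ V ∧ 1 ≤ lF n y V ∧
        0 < hF n y V ∧ hF n y V ≤ (n : ℝ) ^ (-ce) ∧ 1 ≤ lF n y V * hF n y V)
    (g4 : 2 ≤ (n : ℝ) ^ ce) :
    ∀ y : ℝ, (n : ℝ) ^ (-(1 / 6) + e) ≤ A * y → y ≤ 1 / 64 →
    ∀ V : ℝ, (n : ℝ) ^ (-d) * y ^ 3 ≤ A * V → V ≤ y ^ 2 →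
    ∀ a a' : ℝ, SG n β y V a → SG n β (y * (1 + (n : ℝ) ^ (-ch))) V a' →
      |a| ≤ (n : ℝ) ^ w * y ^ 2 → |a'| ≤ (n : ℝ) ^ w * y ^ 2 →
      KV n β y V ≤ Kam β sF lF hF n (y * (1 + (n : ℝ) ^ (-ch))) V a' +
        (n : ℝ) ^ (1 - g) * y ^ 6 := by
  intro y hy hy1 V hV1 hV2 a a' hsg hsg' hA1 hA2
  have hn1 : (1 : ℝ) ≤ n := by exact_mod_cast hn
  have hn0 : (0 : ℝ) < n := by linarith
  have hA0 : 0 < A := by linarith
  have hy0 : 0 < y := by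
    have h3 : 0 < (n : ℝ) ^ (-(1 / 6) + e) := Real.rpow_pos_of_pos hn0 _
    exact pos_of_mul_pos_right (h3.trans_le hy) hA0.le
  have hθ0 : 0 < (n : ℝ) ^ (-ch) := Real.rpow_pos_of_pos hn0 _
  have hθ1 : (n : ℝ) ^ (-ch) ≤ 1 := Real.rpow_le_one_of_one_le_of_nonpos hn1 (by linarith)
  have hη1 : (n : ℝ) ^ (-ce) < 1 := by
    rw [Real.rpow_neg hn0.le]
    exact inv_lt_one_of_one_lt₀ (by linarith)
  set z := y * (1 + (n : ℝ) ^ (-ch)) with hz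
  have hyz : y ≤ z := by rw [hz]; nlinarith
  have hz2 : z ≤ 2 * y := by rw [hz]; nlinarith
  have hz0 : 0 < z := by linarith
  have hd0 : 0 < (n : ℝ) ^ (-d) := Real.rpow_pos_of_pos hn0 _
  have hcube : z ^ 3 ≤ 8 * y ^ 3 := by
    calc z ^ 3 ≤ (2 * y) ^ 3 := pow_le_pow_left₀ hz0.le hz2 3
      _ = 8 * y ^ 3 := by ring
  obtain ⟨p1, p2, p3, p4, p5, p6, p7⟩ := g2 z V (by nlinarith) (by linarith) (by
      calc (n : ℝ) ^ (-d) * z ^ 3 ≤ (n : ℝ) ^ (-d) * (8 * y ^ 3) := by gcongr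
        _ = 8 * ((n : ℝ) ^ (-d) * y ^ 3) := by ring
        _ ≤ 8 * (A * V) := by linarith
        _ = 8 * A * V := by ring)
  have hV1' : V ≤ 1 := by
    have : y ^ 2 ≤ 1 ^ 2 := pow_le_pow_left₀ hy0.le (by linarith) 2
    linarith
  have hVV : V = ∑ _l : Unit, √(V - sF n z V ^ 2) ^ 2 + sF n z V ^ 2 := by
    simp [Real.sq_sqrt (show 0 ≤ V - sF n z V ^ 2 by linarith)]
  have key := link_up_num1 (LB := Unit) (LF := Unit) (cB := fun _ => 1)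
    (cF := fun _ => √(V - sF n z V ^ 2)) (lam := lF n z V) hn hβ (by simp) hVV (by linarith) p1
    p4 p5 (p6.trans_lt hη1) p7 hy0 hθ0 hθ1 (by linarith) hsg hsg' hA1 hA2
  rw [Kam_eq]
  exact key.trans (add_le_add_right (g1 y z _ _ hy (by linarith) hz0.le hz2 p2 p5.le p6) _)

/-- **LINK, lower, at one size.** -/
theorem linkDn_n (hβ : 0 < β) (hn : 1 ≤ n) (hA : 1 ≤ A) (hch : 0 < ch)
    (g1 : ∀ y z s η : ℝ, (n : ℝ) ^ (-(1 / 6) + e) ≤ A * y → y ≤ 1 →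
      0 ≤ z → z ≤ 2 * y → s ^ 2 ≤ (n : ℝ) ^ (-k) * z ^ 3 → 0 ≤ η → η ≤ (n : ℝ) ^ (-ce) →
      60 / (n : ℝ) ^ (-ch) * (1 + Real.log n + n * y * s ^ 2 * η * ((n : ℝ) ^ w * y ^ 2) / β) ≤
        (n : ℝ) ^ (1 - g) * y ^ 6)
    (g2 : ∀ y V : ℝ, (n : ℝ) ^ (-(1 / 6) + e) ≤ A * y → y ≤ 1 / 32 →
      (n : ℝ) ^ (-d) * y ^ 3 ≤ A * V →
      0 < sF n y V ∧ sF n y V ^ 2 ≤ (n : ℝ) ^ (-k) * y ^ 3 ∧ sF n y V ^ 2 ≤ V ∧ 1 ≤ lF n y V ∧
        0 < hF n y V ∧ hF n y V ≤ (n : ℝ) ^ (-ce) ∧ 1 ≤ lF n y V * hF n y V)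
    (g4 : 2 ≤ (n : ℝ) ^ ce) :
    ∀ y : ℝ, (n : ℝ) ^ (-(1 / 6) + e) ≤ A * y → y ≤ 1 / 64 →
    ∀ V : ℝ, (n : ℝ) ^ (-d) * y ^ 3 ≤ A * V → V ≤ y ^ 2 →
    ∀ a a' : ℝ, SG n β y V a → SG n β (y * (1 + (n : ℝ) ^ (-ch))) V a' →
      |a| ≤ (n : ℝ) ^ w * y ^ 2 → |a'| ≤ (n : ℝ) ^ w * y ^ 2 →
      Kam β sF lF hF n y V a ≤ KV n β (y * (1 + (n : ℝ) ^ (-ch))) V +
        (n : ℝ) ^ (1 - g) * y ^ 6 := by
  intro y hy hy1 V hV1 hV2 a a' hsg hsg' hA1 hA2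
  have hn1 : (1 : ℝ) ≤ n := by exact_mod_cast hn
  have hn0 : (0 : ℝ) < n := by linarith
  have hA0 : 0 < A := by linarith
  have hy0 : 0 < y := by
    have h3 : 0 < (n : ℝ) ^ (-(1 / 6) + e) := Real.rpow_pos_of_pos hn0 _
    exact pos_of_mul_pos_right (h3.trans_le hy) hA0.le
  have hθ0 : 0 < (n : ℝ) ^ (-ch) := Real.rpow_pos_of_pos hn0 _
  have hθ1 : (n : ℝ) ^ (-ch) ≤ 1 := Real.rpow_le_one_of_one_le_of_nonpos hn1 (by linarith)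
  have hη1 : (n : ℝ) ^ (-ce) < 1 := by
    rw [Real.rpow_neg hn0.le]
    exact inv_lt_one_of_one_lt₀ (by linarith)
  have hz2 : y * (1 + (n : ℝ) ^ (-ch)) ≤ 2 * y := by nlinarith
  obtain ⟨p1, p2, p3, p4, p5, p6, p7⟩ := g2 y V hy (by linarith) hV1
  have hV1' : V ≤ 1 := by
    have : y ^ 2 ≤ 1 ^ 2 := pow_le_pow_left₀ hy0.le (by linarith) 2
    linarith
  have hVV : V = ∑ _l : Unit, √(V - sF n y V ^ 2) ^ 2 + sF n y V ^ 2 := by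
    simp [Real.sq_sqrt (show 0 ≤ V - sF n y V ^ 2 by linarith)]
  have key := link_dn_num1 (LB := Unit) (LF := Unit) (cB := fun _ => 1)
    (cF := fun _ => √(V - sF n y V ^ 2)) (lam := lF n y V) hn hβ (by simp) hVV (by linarith) p1
    p4 p5 (p6.trans_lt hη1) p7 hy0 hθ0 hθ1 (by linarith) hsg hsg' hA1 hA2
  rw [Kam_eq]
  exact key.trans (add_le_add_right (g1 y y _ _ hy (by linarith) hy0.le (by linarith) p2 p5.le
    p6) _)

end links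

/-- the common error along the filter: `e = 1000 q`, `ch = 45 q`, `g = 36 q`, `w = 25 q`,
`x = 80 q`, `ce = 2000 q` -/
theorem link_err3 {β A : ℝ} (hβ : 0 < β) (hA : 1 ≤ A) : EV fun n q => ∀ y z s η : ℝ,
    (n : ℝ) ^ (-(1 / 6) + 1000 * q) ≤ A * y → y ≤ 1 →
      0 ≤ z → z ≤ 2 * y → s ^ 2 ≤ (n : ℝ) ^ (-(80 * q)) * z ^ 3 → 0 ≤ η →
      η ≤ (n : ℝ) ^ (-(2000 * q)) →
      60 / (n : ℝ) ^ (-(45 * q)) *
        (1 + Real.log n + n * y * s ^ 2 * η * ((n : ℝ) ^ (25 * q) * y ^ 2) / β) ≤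
        (n : ℝ) ^ (1 - 36 * q) * y ^ 6 := by
  filter_upwards [ev_logpow (show (0 : ℝ) < 5900 by norm_num) (120 * 64),
    ev_rpow (show (0 : ℝ) < 1900 by norm_num) (120 / β),
    ev_rpow (show (0 : ℝ) < 1 by norm_num) (max A 8), ev_ge 1, ev_q0]
    with ⟨n, q⟩ h1 h2 h3 hn hq
  dsimp only at h1 h2 h3 hn hq ⊢
  have hN1 : (1 : ℝ) ≤ n := by exact_mod_cast hn
  refine link_err3_n (r := 1 * q) hn hA ?_ h3
  refine link_err2_n hn hβ (h1.trans ?_) (h2.trans ?_)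
  · exact Real.rpow_le_rpow_of_exponent_le hN1 (by linarith)
  · exact Real.rpow_le_rpow_of_exponent_le hN1 (by linarith)

/-- **LINK, upper, second choice, along the filter.** -/
theorem linkUp_two {β A : ℝ} (hβ : 0 < β) (h0 : 1 ≤ A) : EV fun n q =>
    ∀ y : ℝ, (n : ℝ) ^ (-(1 / 6) + 1000 * q) ≤ A * y → y ≤ 1 / 64 →
    ∀ V : ℝ, (n : ℝ) ^ (-(24 * q)) * y ^ 3 ≤ A * V → V ≤ y ^ 2 →
    ∀ a a' : ℝ, SG n β y V a → SG n β (y * (1 + (n : ℝ) ^ (-(45 * q)))) V a' →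
      |a| ≤ (n : ℝ) ^ (25 * q) * y ^ 2 → |a'| ≤ (n : ℝ) ^ (25 * q) * y ^ 2 →
      KV n β y V ≤ Kam β (sC q) (lA q) (hA q) n (y * (1 + (n : ℝ) ^ (-(45 * q)))) V a' +
        (n : ℝ) ^ (1 - 36 * q) * y ^ 6 := by
  filter_upwards [link_err3 hβ h0, ev_rpow (show (0 : ℝ) < 2000 by norm_num) 2, ev_ge 1, ev_q0]
    with ⟨n, q⟩ h1 h2 hn hq
  dsimp only at h1 h2 hn hq ⊢
  exact linkUp_n hβ hn h0 (by linarith) h1 (parV_two_n hq hn (by linarith)) h2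

/-- **LINK, lower, second choice, along the filter.** -/
theorem linkDn_two {β A : ℝ} (hβ : 0 < β) (h0 : 1 ≤ A) : EV fun n q =>
    ∀ y : ℝ, (n : ℝ) ^ (-(1 / 6) + 1000 * q) ≤ A * y → y ≤ 1 / 64 →
    ∀ V : ℝ, (n : ℝ) ^ (-(24 * q)) * y ^ 3 ≤ A * V → V ≤ y ^ 2 →
    ∀ a a' : ℝ, SG n β y V a → SG n β (y * (1 + (n : ℝ) ^ (-(45 * q)))) V a' →
      |a| ≤ (n : ℝ) ^ (25 * q) * y ^ 2 → |a'| ≤ (n : ℝ) ^ (25 * q) * y ^ 2 →
      Kam β (sC q) (lA q) (hA q) n y V a ≤ KV n β (y * (1 + (n : ℝ) ^ (-(45 * q)))) V +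
        (n : ℝ) ^ (1 - 36 * q) * y ^ 6 := by
  filter_upwards [link_err3 hβ h0, ev_rpow (show (0 : ℝ) < 2000 by norm_num) 2, ev_ge 1, ev_q0]
    with ⟨n, q⟩ h1 h2 hn hq
  dsimp only at h1 h2 hn hq ⊢
  exact linkDn_n hβ hn h0 (by linarith) h1 (parV_two_n hq hn h0) h2

/-- the cut is not active in the window, along the filter -/
theorem sC_eq_sB (A : ℝ) : EV fun n q => ∀ y V : ℝ, 0 ≤ y →
    V ≤ A * ((n : ℝ) ^ (-(24 * q)) * y ^ 3) → sC q n y V = sB q n y V := by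
  filter_upwards [ev_rpow (show (0 : ℝ) < 24 by norm_num) A, ev_ge 1] with ⟨n, q⟩ h1 hn
  dsimp only at h1 hn ⊢
  intro y V hy hV
  exact sC_eq h1 hn hy hV

end Vale.Agent.P146.S3
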