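import Vale.Agent.P146.H281.S3Link
import Vale.Agent.P146.H122.S3Defs

/-!
# P146: LINK and the cut in the literals of `H122.S3Defs`
-/

open MeasureTheory ProbabilityTheory Filter Topology Set

namespace Vale.Agent.P146.S3

open Vale.Agent.P146.H529 Vale.Agent.P146.H178

variable {β b₁ : ℝ}

/-- **LINK, upper.** -/
theorem linkUpS (hβ : 0 < β) : LinkUpS β (fun q => Kam β (sC q) (lA q) (hA q)) :=
  fun _ h0 => linkUp_two hβ h0

/-- **LINK, lower.** -/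
theorem linkDnS (hβ : 0 < β) : LinkDnS β (fun q => Kam β (sC q) (lA q) (hA q)) :=
  fun _ h0 => linkDn_two hβ h0

lemma kam_cut {n : ℕ} {q y V a : ℝ} (h : sC q n y V = sB q n y V) :
    Kam β (sC q) (lA q) (hA q) n y V a = Kam β (sB q) (lA q) (hA q) n y V a := by
  unfold Kam
  rw [h]

/-- **KAMP, upper, with the cut.** -/
theorem kampUpS_cut (h : KampUpS β b₁ (fun q => Kam β (sB q) (lA q) (hA q))) :
    KampUpS β b₁ (fun q => Kam β (sC q) (lA q) (hA q)) := by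
  intro A h0
  filter_upwards [h A h0, sC_eq_sB A, ev_ge 1] with ⟨n, q⟩ h1 h2 hn
  dsimp only at h1 h2 hn ⊢
  intro y hy hy2 V hV1 hV2 a ha1 ha2 a0 hsg h3 h4
  have hy0 := (box_pos hn h0 hy hV1).1
  rw [kam_cut (h2 y V hy0.le hV2)]
  exact h1 y hy hy2 V hV1 hV2 a ha1 ha2 a0 hsg h3 h4

/-- **KAMP, lower, with the cut.** -/
theorem kampLowS_cut (h : KampLowS β b₁ (fun q => Kam β (sB q) (lA q) (hA q))) :
    KampLowS β b₁ (fun q => Kam β (sC q) (lA q) (hA q)) := by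
  intro A h0
  filter_upwards [h A h0, sC_eq_sB A, ev_ge 1] with ⟨n, q⟩ h1 h2 hn
  dsimp only at h1 h2 hn ⊢
  intro y hy hy2 V hV1 hV2 a ha1 ha2 a0 hsg h3 h4
  have hy0 := (box_pos hn h0 hy hV1).1
  rw [kam_cut (h2 y V hy0.le hV2)]
  exact h1 y hy hy2 V hV1 hV2 a ha1 ha2 a0 hsg h3 h4

end Vale.Agent.P146.S3
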